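import Mathlib

open Set Filter Topology
open scoped ContDiff

namespace Vale.Agent.P113

/-- a smooth bump supported in `[0,1]` -/
noncomputable def bump (x : ℝ) : ℝ := expNegInvGlue (x * (1 - x))

lemma contDiff_bump : ContDiff ℝ ∞ bump := by
  unfold bump
  exact expNegInvGlue.contDiff.comp (by fun_prop)

lemma bump_nonneg (x : ℝ) : 0 ≤ bump x := expNegInvGlue.nonneg _

lemma bump_zero_of_nonpos {x : ℝ} (h : x ≤ 0) : bump x = 0 :=
  expNegInvGlue.zero_of_nonpos (by nlinarith)

lemma bump_zero_of_one_le {x : ℝ} (h : 1 ≤ x) : bump x = 0 :=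
  expNegInvGlue.zero_of_nonpos (by nlinarith)

lemma bump_pos {x : ℝ} (h0 : 0 < x) (h1 : x < 1) : 0 < bump x :=
  expNegInvGlue.pos_of_pos (by nlinarith)

lemma bump_eq {x : ℝ} (h0 : 0 < x) (h1 : x < 1) : bump x = Real.exp (-(x * (1 - x))⁻¹) := by
  unfold bump expNegInvGlue
  rw [if_neg (by nlinarith)]

lemma glue_ode (y : ℝ) : HasDerivAt expNegInvGlue (deriv expNegInvGlue y) y ∧
    y ^ 2 * deriv expNegInvGlue y = expNegInvGlue y := by
  have h := expNegInvGlue.hasDerivAt_polynomial_eval_inv_mul (1 : Polynomial ℝ) y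
  simp only [Polynomial.eval_one, one_mul, Polynomial.derivative_one, sub_zero, mul_one,
    Polynomial.eval_pow, Polynomial.eval_X] at h
  refine ⟨h.differentiableAt.hasDerivAt, ?_⟩
  rw [h.deriv]
  rcases eq_or_ne y 0 with rfl | hy
  · simp [expNegInvGlue.zero]
  · field_simp

lemma bump_ode (x : ℝ) : (x ^ 2 * (1 - x) ^ 2) * deriv bump x = (1 - 2 * x) * bump x := by
  obtain ⟨h1, h2⟩ := glue_ode (x * (1 - x))
  have h3 : HasDerivAt (fun x : ℝ => x * (1 - x)) (1 - 2 * x) x := by
    have := (hasDerivAt_id x).mul ((hasDerivAt_const x (1:ℝ)).sub (hasDerivAt_id x))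
    refine this.congr_deriv ?_
    simp
    ring
  have h4 : HasDerivAt bump (deriv expNegInvGlue (x * (1 - x)) * (1 - 2 * x)) x :=
    h1.comp x h3
  rw [h4.deriv]
  have : bump x = expNegInvGlue (x * (1 - x)) := rfl
  rw [this, ← h2]
  ring

/-- derivatives of the bump -/
noncomputable def D (n : ℕ) : ℝ → ℝ := iteratedDeriv n bump

lemma D_zero : D 0 = bump := iteratedDeriv_zero

lemma D_succ (n : ℕ) : D (n + 1) = deriv (D n) := iteratedDeriv_succ

lemma contDiff_D (n : ℕ) : ContDiff ℝ ∞ (D n) := by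
  have h : ContDiff ℝ ∞ bump := contDiff_bump
  unfold D
  rw [contDiff_infty]
  intro m
  have := ContDiff.iterate_deriv' m n (contDiff_infty.mp h (m + n))
  rwa [iteratedDeriv_eq_iterate]

lemma hasDerivAt_D (n : ℕ) (x : ℝ) : HasDerivAt (D n) (D (n + 1) x) x := by
  rw [D_succ]
  exact ((contDiff_D n).differentiable (by norm_num) x).hasDerivAt

lemma D_rec (n : ℕ) : ∀ x : ℝ, (x ^ 2 * (1 - x) ^ 2) * D (n + 1) x =
    (1 - 2 * x - n * (2 * x - 6 * x ^ 2 + 4 * x ^ 3)) * D n x
    - (2 + (n - 1) / 2 * (2 - 12 * x + 12 * x ^ 2)) * (n * D (n - 1) x)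
    - (n - 2) / 6 * (24 * x - 12) * (n * (n - 1) * D (n - 2) x)
    - (n - 3) * (n * (n - 1) * (n - 2) * D (n - 3) x) := by
  induction n with
  | zero =>
    intro x
    have := bump_ode x
    rw [D_succ, D_zero]
    simp only [Nat.cast_zero]
    linear_combination this
  | succ n ih =>
    intro x
    have hB : HasDerivAt (fun x => (n : ℝ) * D (n - 1) x) (n * D n x) x := by
      rcases n with _ | n
      · simpa using hasDerivAt_const x (0:ℝ)
      · simpa using (hasDerivAt_D n x).const_mul ((n + 1 : ℕ) : ℝ)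
    have hC : HasDerivAt (fun x => (n : ℝ) * (n - 1) * D (n - 2) x)
        ((n - 1) * (n * D (n - 1) x)) x := by
      rcases n with _ | _ | n
      · simpa using hasDerivAt_const x (0:ℝ)
      · simpa using hasDerivAt_const x (0:ℝ)
      · have := (hasDerivAt_D n x).const_mul (((n + 2 : ℕ) : ℝ) * (((n + 2 : ℕ) : ℝ) - 1))
        refine this.congr_deriv ?_
        simp only [show n + 2 - 1 = n + 1 from rfl]
        ring
    have hE : HasDerivAt (fun x => (n : ℝ) * (n - 1) * (n - 2) * D (n - 3) x)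
        ((n - 2) * (n * (n - 1) * D (n - 2) x)) x := by
      rcases n with _ | _ | _ | n
      · simpa using hasDerivAt_const x (0:ℝ)
      · simpa using hasDerivAt_const x (0:ℝ)
      · refine ((hasDerivAt_const x (0:ℝ)).congr_of_eventuallyEq
          (Eventually.of_forall fun y => ?_)).congr_deriv ?_
        · norm_num
        · norm_num
      · have := (hasDerivAt_D n x).const_mul (((n + 3 : ℕ) : ℝ) * (((n + 3 : ℕ) : ℝ) - 1)
          * (((n + 3 : ℕ) : ℝ) - 2))
        refine this.congr_deriv ?_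
        simp only [show n + 3 - 2 = n + 1 from rfl]
        ring
    have hA := hasDerivAt_D n x
    have hA1 := hasDerivAt_D (n + 1) x
    have hid := hasDerivAt_id x
    have hw : HasDerivAt (fun x : ℝ => x ^ 2 * (1 - x) ^ 2) (2 * x - 6 * x ^ 2 + 4 * x ^ 3) x := by
      have h := (hid.pow 2).mul (((hasDerivAt_const x (1:ℝ)).sub hid).pow 2)
      refine h.congr_deriv ?_
      simp
      ring
    have hw1 : HasDerivAt (fun x : ℝ => 2 * x - 6 * x ^ 2 + 4 * x ^ 3) (2 - 12 * x + 12 * x ^ 2) x := by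
      have h := ((hid.const_mul 2).sub ((hid.pow 2).const_mul 6)).add ((hid.pow 3).const_mul 4)
      refine h.congr_deriv ?_
      simp
      ring
    have hw2 : HasDerivAt (fun x : ℝ => 2 - 12 * x + 12 * x ^ 2) (24 * x - 12) x := by
      have h := ((hasDerivAt_const x (2:ℝ)).sub (hid.const_mul 12)).add ((hid.pow 2).const_mul 12)
      refine h.congr_deriv ?_
      simp
      ring
    have hw3 : HasDerivAt (fun x : ℝ => 24 * x - 12) 24 x := by
      have h := (hid.const_mul 24).sub (hasDerivAt_const x (12:ℝ))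
      refine h.congr_deriv ?_
      simp
    have hlin : HasDerivAt (fun x : ℝ => 1 - 2 * x) (-2) x := by
      have h := (hasDerivAt_const x (1:ℝ)).sub (hid.const_mul 2)
      refine h.congr_deriv ?_
      simp
    have hL := hw.mul hA1
    have hR := ((((hlin.sub (hw1.const_mul (n:ℝ))).mul hA).sub
      ((((hw2.const_mul (((n:ℝ) - 1) / 2)).const_add 2)).mul hB)).sub
      ((hw3.const_mul (((n:ℝ) - 2) / 6)).mul hC)).sub (hE.const_mul ((n:ℝ) - 3))
    have heq : (fun x : ℝ => x ^ 2 * (1 - x) ^ 2) * D (n + 1) = 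
      ((((fun x : ℝ => 1 - 2 * x) - fun x : ℝ => (n:ℝ) * (2 * x - 6 * x ^ 2 + 4 * x ^ 3)) * D n
      - (fun x : ℝ => 2 + ((n:ℝ) - 1) / 2 * (2 - 12 * x + 12 * x ^ 2)) * (fun x => (n : ℝ) * D (n - 1) x))
      - (fun x : ℝ => ((n:ℝ) - 2) / 6 * (24 * x - 12)) * (fun x => (n : ℝ) * (n - 1) * D (n - 2) x))
      - (fun x : ℝ => ((n:ℝ) - 3) * ((n : ℝ) * (n - 1) * (n - 2) * D (n - 3) x)) := by
      funext y
      simp only [Pi.mul_apply, Pi.sub_apply]
      exact ih y
    have hR' := hR.congr_of_eventuallyEq (EventuallyEq.of_eq heq)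
    have hfin := hL.unique hR'
    simp only [Pi.sub_apply] at hfin
    rcases n with _ | n
    · simp only [Nat.cast_zero, Nat.cast_one, zero_add] at hfin ⊢
      norm_num at hfin ⊢
      linear_combination hfin
    · rcases n with _ | n
      · norm_num at hfin ⊢
        linear_combination hfin
      · have e1 : n + 1 + 1 + 1 - 1 = n + 1 + 1 := rfl
        have e2 : n + 1 + 1 + 1 - 2 = n + 1 + 1 - 1 := rfl
        have e3 : n + 1 + 1 + 1 - 3 = n + 1 + 1 - 2 := by omega
        rw [e1, e2, e3]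
        push_cast at hfin ⊢
        linear_combination hfin

lemma D_zero_left (n : ℕ) : ∀ x : ℝ, x ≤ 0 → D n x = 0 := by
  induction n with
  | zero => intro x hx; rw [D_zero]; exact bump_zero_of_nonpos hx
  | succ n ih =>
    intro x hx
    have h1 := (hasDerivAt_D n x).hasDerivWithinAt (s := Iic 0)
    have h2 : HasDerivWithinAt (D n) 0 (Iic 0) x :=
      (hasDerivWithinAt_const x (Iic 0) (0:ℝ)).congr (fun y hy => ih y hy) (ih x hx)
    exact (uniqueDiffOn_Iic (0:ℝ) x hx).eq_deriv _ h1 h2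

lemma D_zero_right (n : ℕ) : ∀ x : ℝ, 1 ≤ x → D n x = 0 := by
  induction n with
  | zero => intro x hx; rw [D_zero]; exact bump_zero_of_one_le hx
  | succ n ih =>
    intro x hx
    have h1 := (hasDerivAt_D n x).hasDerivWithinAt (s := Ici 1)
    have h2 : HasDerivWithinAt (D n) 0 (Ici 1) x :=
      (hasDerivWithinAt_const x (Ici 1) (0:ℝ)).congr (fun y hy => ih y hy) (ih x hx)
    exact (uniqueDiffOn_Ici (1:ℝ) x hx).eq_deriv _ h1 h2

lemma D_bounded (n : ℕ) : ∃ C : ℝ, 0 ≤ C ∧ ∀ x, |D n x| ≤ C := by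
  obtain ⟨C, hC⟩ := (isCompact_Icc (a := (0:ℝ)) (b := 1)).exists_bound_of_continuousOn
    (contDiff_D n).continuous.continuousOn
  refine ⟨max C 0, le_max_right _ _, fun x => ?_⟩
  rcases le_or_gt x 0 with h | h
  · rw [D_zero_left n x h]; simp
  · rcases le_or_gt 1 x with h' | h'
    · rw [D_zero_right n x h']; simp
    · exact (hC x ⟨h.le, h'.le⟩).trans (le_max_left _ _)

end Vale.Agent.P113
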