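import Vale.Agent.P113.Defs

open Set Filter Topology

namespace Vale.Agent.P113

section codes

def radd (x y : RatCode) : RatCode :=
  (x.1 * (y.2.2 + 1) + y.1 * (x.2.2 + 1), x.2.1 * (y.2.2 + 1) + y.2.1 * (x.2.2 + 1),
    (x.2.2 + 1) * (y.2.2 + 1) - 1)

def rmul (x y : RatCode) : RatCode :=
  (x.1 * y.1 + x.2.1 * y.2.1, x.1 * y.2.1 + x.2.1 * y.1, (x.2.2 + 1) * (y.2.2 + 1) - 1)

def rneg (x : RatCode) : RatCode := (x.2.1, x.1, x.2.2)

def rsub (x y : RatCode) : RatCode := radd x (rneg y)

lemma cast_den (a b : ℕ) : (((a + 1) * (b + 1) - 1 : ℕ) : ℝ) + 1 = ((a:ℝ) + 1) * ((b:ℝ) + 1) := by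
  have h : 1 ≤ (a + 1) * (b + 1) := Nat.one_le_iff_ne_zero.mpr (by positivity)
  rw [Nat.cast_sub h]
  push_cast
  ring

lemma den_pos (a : ℕ) : (0:ℝ) < (a:ℝ) + 1 := by positivity

lemma ratVal_radd (x y : RatCode) : ratVal (radd x y) = ratVal x + ratVal y := by
  unfold ratVal radd
  simp only [cast_den]
  have h1 := den_pos x.2.2
  have h2 := den_pos y.2.2
  field_simp
  push_cast
  ring

lemma ratVal_rmul (x y : RatCode) : ratVal (rmul x y) = ratVal x * ratVal y := by
  unfold ratVal rmul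
  simp only [cast_den]
  have h1 := den_pos x.2.2
  have h2 := den_pos y.2.2
  field_simp
  push_cast
  ring

lemma ratVal_rneg (x : RatCode) : ratVal (rneg x) = - ratVal x := by
  unfold ratVal rneg
  simp only
  ring

lemma ratVal_rsub (x y : RatCode) : ratVal (rsub x y) = ratVal x - ratVal y := by
  unfold rsub
  rw [ratVal_radd, ratVal_rneg]
  ring

variable {α β γ δ : Type} [Primcodable α] [Primcodable β] [Primcodable γ] [Primcodable δ]

/-- abbreviations for projections of primitive recursive code-valued functions -/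
lemma prim_fst' {f : α → RatCode} (hf : Primrec f) : Primrec fun a => (f a).1 :=
  Primrec.fst.comp hf
lemma prim_snd' {f : α → RatCode} (hf : Primrec f) : Primrec fun a => (f a).2.1 :=
  Primrec.fst.comp (Primrec.snd.comp hf)
lemma prim_thd' {f : α → RatCode} (hf : Primrec f) : Primrec fun a => (f a).2.2 :=
  Primrec.snd.comp (Primrec.snd.comp hf)

lemma prim_add {f g : α → ℕ} (hf : Primrec f) (hg : Primrec g) : Primrec fun a => f a + g a :=
  Primrec.nat_add.comp hf hg
lemma prim_mul {f g : α → ℕ} (hf : Primrec f) (hg : Primrec g) : Primrec fun a => f a * g a :=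
  Primrec.nat_mul.comp hf hg
lemma prim_sub {f g : α → ℕ} (hf : Primrec f) (hg : Primrec g) : Primrec fun a => f a - g a :=
  Primrec.nat_sub.comp hf hg
lemma prim_pow {f g : α → ℕ} (hf : Primrec f) (hg : Primrec g) : Primrec fun a => f a ^ g a := by
  have h : Primrec₂ ((· ^ ·) : ℕ → ℕ → ℕ) := Primrec₂.unpaired'.1 Nat.Primrec.pow
  exact h.comp hf hg
lemma prim_c (n : ℕ) : Primrec fun _ : α => n := Primrec.const n

lemma prim_radd {f g : α → RatCode} (hf : Primrec f) (hg : Primrec g) :
    Primrec fun a => radd (f a) (g a) := by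
  unfold radd
  refine Primrec.pair ?_ (Primrec.pair ?_ ?_)
  · exact prim_add (prim_mul (prim_fst' hf) (prim_add (prim_thd' hg) (prim_c 1)))
      (prim_mul (prim_fst' hg) (prim_add (prim_thd' hf) (prim_c 1)))
  · exact prim_add (prim_mul (prim_snd' hf) (prim_add (prim_thd' hg) (prim_c 1)))
      (prim_mul (prim_snd' hg) (prim_add (prim_thd' hf) (prim_c 1)))
  · exact prim_sub (prim_mul (prim_add (prim_thd' hf) (prim_c 1))
      (prim_add (prim_thd' hg) (prim_c 1))) (prim_c 1)

lemma prim_rmul {f g : α → RatCode} (hf : Primrec f) (hg : Primrec g) :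
    Primrec fun a => rmul (f a) (g a) := by
  unfold rmul
  refine Primrec.pair ?_ (Primrec.pair ?_ ?_)
  · exact prim_add (prim_mul (prim_fst' hf) (prim_fst' hg))
      (prim_mul (prim_snd' hf) (prim_snd' hg))
  · exact prim_add (prim_mul (prim_fst' hf) (prim_snd' hg))
      (prim_mul (prim_snd' hf) (prim_fst' hg))
  · exact prim_sub (prim_mul (prim_add (prim_thd' hf) (prim_c 1))
      (prim_add (prim_thd' hg) (prim_c 1))) (prim_c 1)

lemma prim_rneg {f : α → RatCode} (hf : Primrec f) : Primrec fun a => rneg (f a) := by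
  unfold rneg
  exact Primrec.pair (prim_snd' hf) (Primrec.pair (prim_fst' hf) (prim_thd' hf))

lemma prim_rsub {f g : α → RatCode} (hf : Primrec f) (hg : Primrec g) :
    Primrec fun a => rsub (f a) (g a) := by
  unfold rsub
  exact prim_radd hf (prim_rneg hg)

lemma prim_triple {f g h : α → ℕ} (hf : Primrec f) (hg : Primrec g) (hh : Primrec h) :
    Primrec fun a => ((f a, g a, h a) : RatCode) :=
  Primrec.pair hf (Primrec.pair hg hh)

end codes

section CR

variable {α β γ δ : Type} [Primcodable α] [Primcodable β] [Primcodable γ] [Primcodable δ]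

/-- `F` is a computable real-valued function. -/
def CR (F : α → ℝ) : Prop :=
  ∃ A : α → ℕ → RatCode, Computable₂ A ∧ ∀ a n, |ratVal (A a n) - F a| ≤ 1 / ((n:ℝ) + 1)

lemma CR.of_eq {F G : α → ℝ} (h : CR F) (e : ∀ a, F a = G a) : CR G := by
  obtain ⟨A, hA, h1⟩ := h
  exact ⟨A, hA, fun a n => by rw [← e a]; exact h1 a n⟩

lemma CR.code {g : α → RatCode} (hg : Computable g) : CR fun a => ratVal (g a) := by
  refine ⟨fun a _ => g a, hg.comp Computable.fst, fun a n => ?_⟩
  simp
  positivity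

lemma CR.comp {F : β → ℝ} (hF : CR F) {g : α → β} (hg : Computable g) : CR fun a => F (g a) := by
  obtain ⟨A, hA, h1⟩ := hF
  refine ⟨fun a n => A (g a) n, ?_, fun a n => h1 (g a) n⟩
  exact hA.comp (hg.comp Computable.fst) Computable.snd

lemma CR.real {ν : ℝ} (h : ComputableReal ν) : CR fun _ : α => ν := by
  obtain ⟨q, hq, h1⟩ := h
  exact ⟨fun _ n => q n, hq.comp Computable.snd, fun _ n => h1 n⟩

lemma CR.neg {F : α → ℝ} (hF : CR F) : CR fun a => - F a := by
  obtain ⟨A, hA, h1⟩ := hF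
  refine ⟨fun a n => rneg (A a n), ?_, fun a n => ?_⟩
  · exact ((prim_rneg Primrec.id).to_comp (α := RatCode)).comp hA
  · rw [ratVal_rneg]
    have := h1 a n
    rw [← abs_neg]
    convert this using 2
    ring

lemma CR.add {F G : α → ℝ} (hF : CR F) (hG : CR G) : CR fun a => F a + G a := by
  obtain ⟨A, hA, h1⟩ := hF
  obtain ⟨B, hB, h2⟩ := hG
  refine ⟨fun a n => radd (A a (2 * n + 1)) (B a (2 * n + 1)), ?_, fun a n => ?_⟩
  · have hr : Primrec fun p : RatCode × RatCode => radd p.1 p.2 :=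
      prim_radd Primrec.fst Primrec.snd
    have hn : Computable fun p : α × ℕ => 2 * p.2 + 1 :=
      ((prim_add (prim_mul (prim_c 2) Primrec.snd) (prim_c 1)).to_comp : Computable fun p : α × ℕ =>
        2 * p.2 + 1)
    exact hr.to_comp.comp ((hA.comp Computable.fst hn).pair (hB.comp Computable.fst hn))
  · rw [ratVal_radd]
    have e1 := h1 a (2 * n + 1)
    have e2 := h2 a (2 * n + 1)
    have e3 : 1 / (((2 * n + 1 : ℕ) : ℝ) + 1) = (1 / ((n:ℝ) + 1)) / 2 := by
      push_cast
      field_simp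
      ring
    rw [e3] at e1 e2
    calc |ratVal (A a (2 * n + 1)) + ratVal (B a (2 * n + 1)) - (F a + G a)|
        = |(ratVal (A a (2 * n + 1)) - F a) + (ratVal (B a (2 * n + 1)) - G a)| := by ring_nf
      _ ≤ |ratVal (A a (2 * n + 1)) - F a| + |ratVal (B a (2 * n + 1)) - G a| := abs_add_le _ _
      _ ≤ _ := by linarith

lemma CR.sub {F G : α → ℝ} (hF : CR F) (hG : CR G) : CR fun a => F a - G a :=
  (hF.add hG.neg).of_eq fun a => by ring

lemma abs_ratVal_le (x : RatCode) : |ratVal x| ≤ (x.1:ℝ) + x.2.1 := by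
  unfold ratVal
  rw [abs_div, abs_of_pos (den_pos x.2.2), div_le_iff₀ (den_pos x.2.2)]
  have h1 : (0:ℝ) ≤ x.1 := by positivity
  have h2 : (0:ℝ) ≤ x.2.1 := by positivity
  have h3 : (0:ℝ) ≤ x.2.2 := by positivity
  have h4 : |(x.1:ℝ) - x.2.1| ≤ (x.1:ℝ) + x.2.1 := by
    rw [abs_le]
    constructor <;> linarith
  nlinarith [mul_nonneg (add_nonneg h1 h2) h3]

lemma CR.mul {F G : α → ℝ} (hF : CR F) (hG : CR G) : CR fun a => F a * G a := by
  obtain ⟨A, hA, h1⟩ := hF
  obtain ⟨B, hB, h2⟩ := hG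
  let N : RatCode → RatCode → ℕ → ℕ := fun x y n =>
    ((x.1 + x.2.1 + 1) + (y.1 + y.2.1 + 1) + 1) * (n + 1)
  have hN : Primrec fun p : (RatCode × RatCode) × ℕ => N p.1.1 p.1.2 p.2 := by
    have f1 : Primrec fun p : (RatCode × RatCode) × ℕ => p.1.1 := Primrec.fst.comp Primrec.fst
    have f2 : Primrec fun p : (RatCode × RatCode) × ℕ => p.1.2 := Primrec.snd.comp Primrec.fst
    exact prim_mul (prim_add (prim_add (prim_add (prim_add (prim_fst' f1) (prim_snd' f1))
      (prim_c 1)) (prim_add (prim_add (prim_fst' f2) (prim_snd' f2)) (prim_c 1))) (prim_c 1))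
      (prim_add Primrec.snd (prim_c 1))
  refine ⟨fun a n => rmul (A a (N (A a 0) (B a 0) n)) (B a (N (A a 0) (B a 0) n)), ?_,
    fun a n => ?_⟩
  · have hr : Primrec fun p : RatCode × RatCode => rmul p.1 p.2 :=
      prim_rmul Primrec.fst Primrec.snd
    have hn : Computable fun p : α × ℕ => N (A p.1 0) (B p.1 0) p.2 := by
      have h0 : Computable fun p : α × ℕ => ((A p.1 0, B p.1 0), p.2) :=
        ((hA.comp Computable.fst (Computable.const 0)).pair
          (hB.comp Computable.fst (Computable.const 0))).pair Computable.snd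
      exact hN.to_comp.comp h0
    exact hr.to_comp.comp ((hA.comp Computable.fst hn).pair (hB.comp Computable.fst hn))
  · rw [ratVal_rmul]
    set M := N (A a 0) (B a 0) n with hM
    have e1 := h1 a M
    have e2 := h2 a M
    have e10 := h1 a 0
    have e20 := h2 a 0
    norm_num at e10 e20
    set PF : ℝ := ((A a 0).1 : ℝ) + (A a 0).2.1 + 1 with hPF
    set PG : ℝ := ((B a 0).1 : ℝ) + (B a 0).2.1 + 1 with hPG
    have hF1 : |F a| ≤ PF := by
      have := abs_ratVal_le (A a 0)
      have h3 : |F a| ≤ |ratVal (A a 0)| + |ratVal (A a 0) - F a| := by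
        calc |F a| = |ratVal (A a 0) - (ratVal (A a 0) - F a)| := by ring_nf
          _ ≤ _ := abs_sub _ _
      linarith
    have hG1 : |G a| ≤ PG := by
      have := abs_ratVal_le (B a 0)
      have h3 : |G a| ≤ |ratVal (B a 0)| + |ratVal (B a 0) - G a| := by
        calc |G a| = |ratVal (B a 0) - (ratVal (B a 0) - G a)| := by ring_nf
          _ ≤ _ := abs_sub _ _
      linarith
    have hMv : (M : ℝ) = (PF + PG + 1) * ((n:ℝ) + 1) := by
      rw [hM]
      simp only [N]
      push_cast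
      rw [hPF, hPG]
    have hPF0 : 0 ≤ PF := by positivity
    have hPG0 : 0 ≤ PG := by positivity
    have hn0 : (0:ℝ) < (n:ℝ) + 1 := den_pos n
    have hM0 : (0:ℝ) < (M:ℝ) + 1 := den_pos M
    have hM1 : 1 / ((M:ℝ) + 1) ≤ 1 := by
      rw [div_le_one hM0]
      have : (0:ℝ) ≤ M := by positivity
      linarith
    have hAM : |ratVal (A a M)| ≤ PF + 1 := by
      calc |ratVal (A a M)| = |(ratVal (A a M) - F a) + F a| := by ring_nf
        _ ≤ |ratVal (A a M) - F a| + |F a| := abs_add_le _ _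
        _ ≤ PF + 1 := by linarith
    calc |ratVal (A a M) * ratVal (B a M) - F a * G a|
        = |ratVal (A a M) * (ratVal (B a M) - G a) + G a * (ratVal (A a M) - F a)| := by ring_nf
      _ ≤ |ratVal (A a M) * (ratVal (B a M) - G a)| + |G a * (ratVal (A a M) - F a)| :=
          abs_add_le _ _
      _ = |ratVal (A a M)| * |ratVal (B a M) - G a| + |G a| * |ratVal (A a M) - F a| := by
          rw [abs_mul, abs_mul]
      _ ≤ (PF + 1) * (1 / ((M:ℝ) + 1)) + PG * (1 / ((M:ℝ) + 1)) := by gcongr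
      _ = (PF + PG + 1) / ((M:ℝ) + 1) := by ring
      _ ≤ 1 / ((n:ℝ) + 1) := by
          rw [div_le_div_iff₀ hM0 hn0, hMv]
          nlinarith

lemma CR.cond {F G : α → ℝ} {c : α → Bool} (hc : Computable c) (hF : CR F) (hG : CR G) :
    CR fun a => if c a = true then F a else G a := by
  obtain ⟨A, hA, h1⟩ := hF
  obtain ⟨B, hB, h2⟩ := hG
  refine ⟨fun a n => bif c a then A a n else B a n, ?_, fun a n => ?_⟩
  · exact Computable.cond (hc.comp Computable.fst) hA hB
  · cases h : c a
    · simpa [h] using h2 a n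
    · simpa [h] using h1 a n

end CR

end Vale.Agent.P113
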