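import Vale.Agent.P113.Exp

open Set Filter Topology

namespace Vale.Agent.P113

def rn (k : ℕ) : RatCode := (k, 0, 0)

lemma ratVal_rn (k : ℕ) : ratVal (rn k) = k := by
  simp [ratVal, rn]

abbrev St : Type := RatCode × RatCode × RatCode × RatCode

def winv (c : RatCode) : RatCode :=
  ((c.2.2 + 1) ^ 4, 0, ((c.1 - c.2.1) * (c.2.2 + 1 - (c.1 - c.2.1))) ^ 2 - 1)

def t1 (c : RatCode) (n : ℕ) : RatCode :=
  rsub (rsub (rn 1) (rmul (rn 2) c))
    (rmul (rn n) (radd (rsub (rmul (rn 2) c) (rmul (rn 6) (rmul c c)))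
      (rmul (rn 4) (rmul (rmul c c) c))))

def t2 (c : RatCode) (n : ℕ) : RatCode :=
  radd (rn 2) (rmul (n, 1, 1) (radd (rsub (rn 2) (rmul (rn 12) c)) (rmul (rn 12) (rmul c c))))

def t3 (c : RatCode) (n : ℕ) : RatCode :=
  rmul (n, 2, 5) (rsub (rmul (rn 24) c) (rn 12))

def stepA (c : RatCode) (n : ℕ) (st : St) : RatCode :=
  rmul (winv c) (rsub (rsub (rsub (rmul (t1 c n) st.1) (rmul (t2 c n) st.2.1))
    (rmul (t3 c n) st.2.2.1)) (rmul (n, 3, 0) st.2.2.2))

def stepSt (c : RatCode) (n : ℕ) (st : St) : St :=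
  (stepA c n st, rmul (rn (n + 1)) st.1, rmul (rn (n + 1)) st.2.1, rmul (rn (n + 1)) st.2.2.1)

def stSeq (c : RatCode) (n : ℕ) : St :=
  Nat.rec (rn 1, rn 0, rn 0, rn 0) (fun n st => stepSt c n st) n

/-- `0 < x < 1` -/
def inside (c : RatCode) : Bool := decide (c.2.1 < c.1) && decide (c.1 - c.2.1 < c.2.2 + 1)

lemma inside_iff (c : RatCode) : inside c = true ↔ 0 < ratVal c ∧ ratVal c < 1 := by
  unfold inside ratVal
  have hd := den_pos c.2.2
  rw [Bool.and_eq_true, decide_eq_true_iff, decide_eq_true_iff, div_lt_one hd, div_pos_iff_of_pos_right hd, sub_pos,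
    Nat.cast_lt]
  constructor
  · rintro ⟨h1, h2⟩
    refine ⟨h1, ?_⟩
    rw [← Nat.cast_sub h1.le]
    exact_mod_cast h2
  · rintro ⟨h1, h2⟩
    refine ⟨h1, ?_⟩
    rw [← Nat.cast_sub h1.le] at h2
    exact_mod_cast h2

lemma inside_vals {c : RatCode} (h : inside c = true) :
    ∃ u v : ℕ, 0 < u ∧ 0 < v ∧ c.1 - c.2.1 = u ∧ c.2.2 + 1 - (c.1 - c.2.1) = v ∧
      ratVal c = (u:ℝ) / ((c.2.2:ℝ) + 1) ∧ 1 - ratVal c = (v:ℝ) / ((c.2.2:ℝ) + 1) := by
  unfold inside at h
  rw [Bool.and_eq_true, decide_eq_true_iff, decide_eq_true_iff] at h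
  obtain ⟨h1, h2⟩ := h
  have hd := den_pos c.2.2
  have e1 : ratVal c = ((c.1 - c.2.1 : ℕ):ℝ) / ((c.2.2:ℝ) + 1) := by
    unfold ratVal
    rw [Nat.cast_sub h1.le]
  refine ⟨c.1 - c.2.1, c.2.2 + 1 - (c.1 - c.2.1), by omega, by omega, rfl, rfl, e1, ?_⟩
  rw [e1, Nat.cast_sub h2.le]
  push_cast
  field_simp

lemma winv_val {c : RatCode} (h : inside c = true) :
    ratVal (winv c) * (ratVal c ^ 2 * (1 - ratVal c) ^ 2) = 1 := by
  obtain ⟨u, v, hu, hv, e1, e2, e3, e4⟩ := inside_vals h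
  rw [e4, e3]
  have e2' : c.2.2 + 1 - u = v := by rw [← e1]; exact e2
  unfold winv ratVal
  simp only [e1, e2']
  have h1 : 1 ≤ (u * v) ^ 2 := Nat.one_le_pow _ _ (by positivity)
  have hu' : (0:ℝ) < u := by exact_mod_cast hu
  have hv' : (0:ℝ) < v := by exact_mod_cast hv
  have hd := den_pos c.2.2
  rw [Nat.cast_sub h1]
  push_cast
  rw [sub_zero, sub_add_cancel]
  field_simp

lemma step_spec {c : RatCode} (h : inside c = true) (n : ℕ) {st : St} {x : ℝ} (hx : ratVal c = x)
    (hA : ratVal st.1 * bump x = D n x)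
    (hB : ratVal st.2.1 * bump x = n * D (n - 1) x)
    (hC : ratVal st.2.2.1 * bump x = n * (n - 1) * D (n - 2) x)
    (hE : ratVal st.2.2.2 * bump x = n * (n - 1) * (n - 2) * D (n - 3) x) :
    ratVal (stepA c n st) * bump x = D (n + 1) x := by
  have hw := winv_val h
  rw [hx] at hw
  have hrec := D_rec n x
  have e1 : ratVal (t1 c n) = 1 - 2 * x - n * (2 * x - 6 * x ^ 2 + 4 * x ^ 3) := by
    unfold t1
    simp only [ratVal_rsub, ratVal_radd, ratVal_rmul, ratVal_rn, hx]
    push_cast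
    ring
  have e2 : ratVal (t2 c n) = 2 + (n - 1) / 2 * (2 - 12 * x + 12 * x ^ 2) := by
    unfold t2
    simp only [ratVal_rsub, ratVal_radd, ratVal_rmul, ratVal_rn, hx]
    unfold ratVal
    push_cast
    ring
  have e3 : ratVal (t3 c n) = (n - 2) / 6 * (24 * x - 12) := by
    unfold t3
    simp only [ratVal_rsub, ratVal_rmul, ratVal_rn, hx]
    unfold ratVal
    push_cast
    ring
  have e4 : ratVal ((n, 3, 0) : RatCode) = n - 3 := by
    unfold ratVal
    push_cast
    ring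
  unfold stepA
  simp only [ratVal_rsub, ratVal_rmul, e1, e2, e3, e4]
  rw [← hA, ← hB, ← hC, ← hE] at hrec
  have : D (n + 1) x = ratVal (winv c) * ((x ^ 2 * (1 - x) ^ 2) * D (n + 1) x) := by
    rw [← mul_assoc, hw, one_mul]
  rw [this, hrec]
  ring

lemma stSeq_spec {c : RatCode} (h : inside c = true) {x : ℝ} (hx : ratVal c = x) (n : ℕ) :
    ratVal (stSeq c n).1 * bump x = D n x ∧
    ratVal (stSeq c n).2.1 * bump x = n * D (n - 1) x ∧
    ratVal (stSeq c n).2.2.1 * bump x = n * (n - 1) * D (n - 2) x ∧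
    ratVal (stSeq c n).2.2.2 * bump x = n * (n - 1) * (n - 2) * D (n - 3) x := by
  induction n with
  | zero =>
    have e : stSeq c 0 = (rn 1, rn 0, rn 0, rn 0) := rfl
    rw [e]
    simp only [ratVal_rn, D_zero]
    norm_num
  | succ n ih =>
    obtain ⟨hA, hB, hC, hE⟩ := ih
    have e : stSeq c (n + 1) = stepSt c n (stSeq c n) := rfl
    rw [e]
    unfold stepSt
    refine ⟨step_spec h n hx hA hB hC hE, ?_, ?_, ?_⟩
    · simp only [ratVal_rmul, ratVal_rn, mul_assoc, hA, Nat.add_sub_cancel]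
    · simp only [ratVal_rmul, ratVal_rn, mul_assoc, hB]
      push_cast
      ring
    · simp only [ratVal_rmul, ratVal_rn, mul_assoc, hC]
      push_cast
      ring

lemma D_eq_of_inside {c : RatCode} (h : inside c = true) (n : ℕ) :
    D n (ratVal c) = ratVal (stSeq c n).1 *
      Real.exp (-((((c.2.2 + 1) ^ 2 : ℕ) : ℝ) /
        ((((c.1 - c.2.1) * (c.2.2 + 1 - (c.1 - c.2.1)) - 1 : ℕ) : ℝ) + 1))) := by
  have h1 := (stSeq_spec h rfl n).1
  rw [← h1]
  congr 1
  have h2 := (inside_iff c).mp h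
  rw [bump_eq h2.1 h2.2]
  congr 2
  obtain ⟨u, v, hu, hv, e1, e2, e3, e4⟩ := inside_vals h
  have e2' : c.2.2 + 1 - u = v := by rw [← e1]; exact e2
  rw [e4, e3, e1, e2']
  have h3 : 1 ≤ u * v := by nlinarith
  have hu' : (0:ℝ) < u := by exact_mod_cast hu
  have hv' : (0:ℝ) < v := by exact_mod_cast hv
  have hd := den_pos c.2.2
  rw [Nat.cast_sub h3]
  push_cast
  rw [sub_add_cancel]
  field_simp

lemma D_eq_of_not_inside {c : RatCode} (h : ¬ inside c = true) (n : ℕ) : D n (ratVal c) = 0 := by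
  rw [inside_iff, not_and_or, not_lt, not_lt] at h
  rcases h with h | h
  · exact D_zero_left n _ h
  · exact D_zero_right n _ h

variable {α : Type} [Primcodable α]

lemma prim_rn {f : α → ℕ} (hf : Primrec f) : Primrec fun a => rn (f a) :=
  prim_triple hf (prim_c 0) (prim_c 0)

lemma prim_winv {f : α → RatCode} (hf : Primrec f) : Primrec fun a => winv (f a) := by
  unfold winv
  have hu : Primrec fun a => (f a).1 - (f a).2.1 := prim_sub (prim_fst' hf) (prim_snd' hf)
  have hd : Primrec fun a => (f a).2.2 + 1 := prim_add (prim_thd' hf) (prim_c 1)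
  exact prim_triple (prim_pow hd (prim_c 4)) (prim_c 0)
    (prim_sub (prim_pow (prim_mul hu (prim_sub hd hu)) (prim_c 2)) (prim_c 1))

lemma prim_t1 {f : α → RatCode} {g : α → ℕ} (hf : Primrec f) (hg : Primrec g) :
    Primrec fun a => t1 (f a) (g a) := by
  unfold t1
  exact prim_rsub (prim_rsub (prim_rn (prim_c 1)) (prim_rmul (prim_rn (prim_c 2)) hf))
    (prim_rmul (prim_rn hg) (prim_radd (prim_rsub (prim_rmul (prim_rn (prim_c 2)) hf)
      (prim_rmul (prim_rn (prim_c 6)) (prim_rmul hf hf)))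
      (prim_rmul (prim_rn (prim_c 4)) (prim_rmul (prim_rmul hf hf) hf))))

lemma prim_t2 {f : α → RatCode} {g : α → ℕ} (hf : Primrec f) (hg : Primrec g) :
    Primrec fun a => t2 (f a) (g a) := by
  unfold t2
  exact prim_radd (prim_rn (prim_c 2)) (prim_rmul (prim_triple hg (prim_c 1) (prim_c 1))
    (prim_radd (prim_rsub (prim_rn (prim_c 2)) (prim_rmul (prim_rn (prim_c 12)) hf))
      (prim_rmul (prim_rn (prim_c 12)) (prim_rmul hf hf))))

lemma prim_t3 {f : α → RatCode} {g : α → ℕ} (hf : Primrec f) (hg : Primrec g) :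
    Primrec fun a => t3 (f a) (g a) := by
  unfold t3
  exact prim_rmul (prim_triple hg (prim_c 2) (prim_c 5))
    (prim_rsub (prim_rmul (prim_rn (prim_c 24)) hf) (prim_rn (prim_c 12)))

lemma prim_stepA {f : α → RatCode} {g : α → ℕ} {s : α → St} (hf : Primrec f) (hg : Primrec g)
    (hs : Primrec s) : Primrec fun a => stepA (f a) (g a) (s a) := by
  unfold stepA
  have h1 : Primrec fun a => (s a).1 := Primrec.fst.comp hs
  have h2' : Primrec fun a => (s a).2 := Primrec.snd.comp hs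
  have h2 : Primrec fun a => (s a).2.1 := Primrec.fst.comp h2'
  have h3' : Primrec fun a => (s a).2.2 := Primrec.snd.comp h2'
  have h3 : Primrec fun a => (s a).2.2.1 := Primrec.fst.comp h3'
  have h4 : Primrec fun a => (s a).2.2.2 := Primrec.snd.comp h3'
  exact prim_rmul (prim_winv hf) (prim_rsub (prim_rsub (prim_rsub
    (prim_rmul (prim_t1 hf hg) h1) (prim_rmul (prim_t2 hf hg) h2))
    (prim_rmul (prim_t3 hf hg) h3)) (prim_rmul (prim_triple hg (prim_c 3) (prim_c 0)) h4))

lemma prim_stepSt {f : α → RatCode} {g : α → ℕ} {s : α → St} (hf : Primrec f) (hg : Primrec g)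
    (hs : Primrec s) : Primrec fun a => stepSt (f a) (g a) (s a) := by
  unfold stepSt
  have h1 : Primrec fun a => (s a).1 := Primrec.fst.comp hs
  have h2' : Primrec fun a => (s a).2 := Primrec.snd.comp hs
  have h2 : Primrec fun a => (s a).2.1 := Primrec.fst.comp h2'
  have h3' : Primrec fun a => (s a).2.2 := Primrec.snd.comp h2'
  have h3 : Primrec fun a => (s a).2.2.1 := Primrec.fst.comp h3'
  have hn : Primrec fun a => rn (g a + 1) := prim_rn (prim_add hg (prim_c 1))
  exact Primrec.pair (prim_stepA hf hg hs) (Primrec.pair (prim_rmul hn h1)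
    (Primrec.pair (prim_rmul hn h2) (prim_rmul hn h3)))

lemma prim_stSeq {f : α → RatCode} {g : α → ℕ} (hf : Primrec f) (hg : Primrec g) :
    Primrec fun a => stSeq (f a) (g a) := by
  unfold stSeq
  refine Primrec.nat_rec' (h := fun a p => stepSt (f a) p.1 p.2) hg (Primrec.const _) ?_
  exact prim_stepSt (hf.comp Primrec.fst) (Primrec.fst.comp Primrec.snd)
    (Primrec.snd.comp Primrec.snd)

lemma prim_inside {f : α → RatCode} (hf : Primrec f) : Primrec fun a => inside (f a) := by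
  unfold inside
  have h1 : Primrec fun a => decide ((f a).2.1 < (f a).1) :=
    (Primrec.nat_lt.comp (prim_snd' hf) (prim_fst' hf)).decide
  have h2 : Primrec fun a => decide ((f a).1 - (f a).2.1 < (f a).2.2 + 1) :=
    (Primrec.nat_lt.comp (prim_sub (prim_fst' hf) (prim_snd' hf))
      (prim_add (prim_thd' hf) (prim_c 1))).decide
  exact Primrec.and.comp h1 h2

/-- All derivatives of the bump are computable, uniformly. -/
lemma cr_D {f : α → RatCode} {g : α → ℕ} (hf : Primrec f) (hg : Primrec g) :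
    CR fun a => D (g a) (ratVal (f a)) := by
  have hu : Primrec fun a => (f a).1 - (f a).2.1 := prim_sub (prim_fst' hf) (prim_snd' hf)
  have hd : Primrec fun a => (f a).2.2 + 1 := prim_add (prim_thd' hf) (prim_c 1)
  set p : α → ℕ := fun a => ((f a).2.2 + 1) ^ 2 with hp
  set q : α → ℕ := fun a =>
    ((f a).1 - (f a).2.1) * ((f a).2.2 + 1 - ((f a).1 - (f a).2.1)) - 1 with hq
  have h1 : CR fun a => ratVal (stSeq (f a) (g a)).1 *
      Real.exp (-((p a : ℝ) / ((q a : ℝ) + 1))) :=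
    CR.mul (CR.code (Primrec.fst.comp (prim_stSeq hf hg)).to_comp)
      (CR.exp (prim_pow hd (prim_c 2)) (prim_sub (prim_mul hu (prim_sub hd hu)) (prim_c 1)))
  have h2 : CR fun _ : α => (0:ℝ) := by
    have := CR.code (α := α) (Computable.const (rn 0))
    exact this.of_eq fun a => by rw [ratVal_rn]; simp
  refine (CR.cond (prim_inside hf).to_comp h1 h2).of_eq fun a => ?_
  by_cases h : inside (f a) = true
  · rw [if_pos h, D_eq_of_inside h]
  · rw [if_neg h, D_eq_of_not_inside h]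

end Vale.Agent.P113
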