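import Mathlib

open Set MeasureTheory
open scoped ContDiff

namespace Vale.Agent.P113

/-- Space coordinates.  A point of the torus `(ℝ/ℤ)³` is represented by a point of `Fin 3 → ℝ`;
functions on the torus are functions on `Fin 3 → ℝ` unchanged by integer translations. -/
abbrev Space : Type := Fin 3 → ℝ

/-- The point of the torus represented by `x`. -/
def toTorus (x : Space) : Fin 3 → UnitAddCircle := fun i => (x i : UnitAddCircle)

/-- `g` is (the lift to `Space` of) a function on the torus. -/
def TorusFun {E : Type} (g : Space → E) : Prop :=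
  ∀ (x : Space) (k : Fin 3 → ℤ), g (fun i => x i + (k i : ℝ)) = g x

/-- The `j`-th spatial derivative of `g` at `x`. -/
noncomputable def pd {E : Type} [NormedAddCommGroup E] [NormedSpace ℝ E] (j : Fin 3)
    (g : Space → E) (x : Space) : E :=
  fderiv ℝ g x (Pi.single j 1)

/-- `(u, p)` is a classical solution on `[0,T]` of the incompressible Navier-Stokes system on the
torus with viscosity `ν`, force `f` and zero initial velocity. -/
structure IsClassicalSolution (ν T : ℝ) (f u : ℝ → Space → Space) (p : ℝ → Space → ℝ) : Prop where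
  torus_u : ∀ t ∈ Icc 0 T, TorusFun (u t)
  torus_p : ∀ t ∈ Icc 0 T, TorusFun (p t)
  contDiff_u : ∀ t ∈ Icc 0 T, ContDiff ℝ 2 (u t)
  contDiff_p : ∀ t ∈ Icc 0 T, ContDiff ℝ 1 (p t)
  continuous_u : ContinuousOn (fun q : ℝ × Space => u q.1 q.2) (Icc 0 T ×ˢ univ)
  continuous_du : ContinuousOn (fun q : ℝ × Space => fderiv ℝ (u q.1) q.2) (Icc 0 T ×ˢ univ)
  continuous_ddu : ContinuousOn (fun q : ℝ × Space => fderiv ℝ (fderiv ℝ (u q.1)) q.2)
    (Icc 0 T ×ˢ univ)
  continuous_p : ContinuousOn (fun q : ℝ × Space => p q.1 q.2) (Icc 0 T ×ˢ univ)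
  continuous_dp : ContinuousOn (fun q : ℝ × Space => fderiv ℝ (p q.1) q.2) (Icc 0 T ×ˢ univ)
  differentiable_t : ∀ x, ∀ t ∈ Icc 0 T,
    DifferentiableWithinAt ℝ (fun s => u s x) (Icc 0 T) t
  continuous_ut : ContinuousOn
    (fun q : ℝ × Space => derivWithin (fun s => u s q.2) (Icc 0 T) q.1) (Icc 0 T ×ˢ univ)
  initial : ∀ x, u 0 x = 0
  div_free : ∀ t ∈ Icc 0 T, ∀ x, ∑ j, pd j (u t) x j = 0
  momentum : ∀ t ∈ Icc 0 T, ∀ x, ∀ i,
    derivWithin (fun s => u s x) (Icc 0 T) t i + ∑ j, u t x j * pd j (u t) x i
      = - pd i (p t) x + ν * ∑ j, pd j (pd j (u t)) x i + f t x i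
  mean_zero : ∀ t ∈ Icc 0 T, ∫ x in Icc (0 : Space) 1, p t x = 0

/-- `X` is the trajectory of the velocity field `u` from the point `a`, for all times `t ≥ 0`
(lifted to `Space`). -/
def IsTrajectory (u : ℝ → Space → Space) (a : Space) (X : ℝ → Space) : Prop :=
  X 0 = a ∧ ∀ t, 0 ≤ t → HasDerivWithinAt X (u t (X t)) (Ici 0) t

/-- `f` is a smooth force on the torus (for all times, in particular for `t ≥ 0`). -/
def IsSmoothForce (f : ℝ → Space → Space) : Prop :=
  ContDiff ℝ ∞ (fun q : ℝ × Space => f q.1 q.2) ∧ ∀ t, TorusFun (f t)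

/-- Codes of rational numbers by triples of natural numbers. -/
abbrev RatCode : Type := ℕ × ℕ × ℕ

/-- The rational number `(a - b) / (c + 1)` with code `(a, b, c)`, as a real number. -/
noncomputable def ratVal (r : RatCode) : ℝ := ((r.1 : ℝ) - (r.2.1 : ℝ)) / ((r.2.2 : ℝ) + 1)

/-- A computable real number. -/
def ComputableReal (ν : ℝ) : Prop :=
  ∃ q : ℕ → RatCode, Computable q ∧ ∀ n : ℕ, |ratVal (q n) - ν| ≤ 1 / ((n : ℝ) + 1)

/-- Time derivative of a scalar function of time and space. -/
noncomputable def dt (F : ℝ → Space → ℝ) : ℝ → Space → ℝ := fun t x => deriv (fun s => F s x) t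

/-- Spatial derivative, in the direction `j`, of a scalar function of time and space. -/
noncomputable def dx (j : Fin 3) (F : ℝ → Space → ℝ) : ℝ → Space → ℝ := fun t x => pd j (F t) x

/-- The mixed derivative with `a` time derivatives and `b₀`, `b₁`, `b₂` derivatives in the three
space directions. -/
noncomputable def mixedDeriv (a b₀ b₁ b₂ : ℕ) (F : ℝ → Space → ℝ) : ℝ → Space → ℝ :=
  dt^[a] ((dx 0)^[b₀] ((dx 1)^[b₁] ((dx 2)^[b₂] F)))

/-- The program `c` returns, at every rational point with `t ≥ 0`, every mixed derivative of every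
component of `f`, with error at most `1 / (n + 1)`, for every prescribed `n`. -/
def IsProgramFor (c : Nat.Partrec.Code) (f : ℝ → Space → Space) : Prop :=
  ∀ (i : Fin 3) (a b₀ b₁ b₂ : ℕ) (t x₀ x₁ x₂ : RatCode) (n : ℕ), 0 ≤ ratVal t →
    ∃ r : RatCode,
      Encodable.encode r ∈
        c.eval (Encodable.encode (i, (a, b₀, b₁, b₂), (t, x₀, x₁, x₂), n)) ∧
      |ratVal r - mixedDeriv a b₀ b₁ b₂ (fun s x => f s x i) (ratVal t)
        ![ratVal x₀, ratVal x₁, ratVal x₂]| ≤ 1 / ((n : ℝ) + 1)

/-- A machine: the start state, the list of halting states, and the table of rules.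
States and symbols are natural numbers and the blank is `0`.  An entry `((q, s), (q', s', d))`
of the table says: in state `q` reading `s`, write `s'`, go to state `q'`, and move the head one
cell to the left if `d = 0`, one cell to the right if `d = 1`, and not at all otherwise.
The first entry for `(q, s)` counts.  If there is no entry for `(q, s)`, nothing changes. -/
abbrev Machine : Type := ℕ × List ℕ × List ((ℕ × ℕ) × ℕ × ℕ × ℕ)

/-- A configuration: a state, a two-sided tape and the position of the head. -/
structure Config where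
  state : ℕ
  tape : ℤ → ℕ
  head : ℤ

/-- One step of the machine. -/
def step (M : Machine) (c : Config) : Config :=
  match M.2.2.lookup (c.state, c.tape c.head) with
  | none => c
  | some (q, s, d) =>
      { state := q
        tape := Function.update c.tape c.head s
        head := if d = 0 then c.head - 1 else if d = 1 then c.head + 1 else c.head }

/-- The initial configuration on input `w`: the word is written from cell `0` on, all other cells
are blank, and the head is at cell `0`. -/
def initConfig (M : Machine) (w : List ℕ) : Config where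
  state := M.1
  tape := fun z => if 0 ≤ z then w.getD z.toNat 0 else 0
  head := 0

/-- `M` halts on `w`: it reaches a halting state after finitely many steps (possibly none). -/
def Halts (M : Machine) (w : List ℕ) : Prop :=
  ∃ n : ℕ, ((step M)^[n] (initConfig M w)).state ∈ M.2.1

end Vale.Agent.P113
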