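import Vale.Agent.P113.Comp
import Vale.Agent.P113.Bump

open Set Filter Topology

namespace Vale.Agent.P113

lemma exp_approx {s : ℝ} (hs : 0 ≤ s) {m : ℝ} (k : ℕ) (hk : (k : ℝ) = m) (hm : 0 < m)
    (h : s ^ 2 / m ≤ 1 / 2) :
    |((1 + s / m) ^ k)⁻¹ - Real.exp (-s)| ≤ 2 * (s ^ 2 / m) := by
  set δ := s ^ 2 / m with hδ
  have hδ0 : 0 ≤ δ := by positivity
  have hu : 0 ≤ s / m := by positivity
  have h1 : (1 + s / m) ^ k ≤ Real.exp s := by
    calc (1 + s / m) ^ k ≤ (Real.exp (s / m)) ^ k := by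
          gcongr
          have := Real.add_one_le_exp (s / m)
          linarith
      _ = Real.exp (k * (s / m)) := by rw [← Real.exp_nat_mul]
      _ = Real.exp s := by
          rw [hk]
          congr 1
          field_simp
  have h2 : Real.exp (s - δ) ≤ (1 + s / m) ^ k := by
    have h3 : Real.exp ((s / m) / (1 + s / m)) ≤ 1 + s / m := by
      have h4 : 1 - (s / m) / (1 + s / m) ≤ Real.exp (-((s / m) / (1 + s / m))) := by
        have := Real.add_one_le_exp (-((s / m) / (1 + s / m)))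
        linarith
      have h5 : 1 - (s / m) / (1 + s / m) = (1 + s / m)⁻¹ := by
        field_simp
        ring
      rw [h5, Real.exp_neg] at h4
      exact (inv_le_inv₀ (by positivity) (Real.exp_pos _)).mp h4
    calc Real.exp (s - δ) ≤ Real.exp (k * ((s / m) / (1 + s / m))) := by
          apply Real.exp_le_exp.mpr
          rw [hk, hδ]
          have e : m * (s / m / (1 + s / m)) = s * m / (m + s) := by
            field_simp
          rw [e, le_div_iff₀ (by positivity)]
          have e2 : (s - s ^ 2 / m) * (m + s) = s * m - s ^ 3 / m := by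
            field_simp
            ring
          rw [e2]
          have : 0 ≤ s ^ 3 / m := by positivity
          linarith
      _ = (Real.exp ((s / m) / (1 + s / m))) ^ k := by rw [← Real.exp_nat_mul]
      _ ≤ _ := by gcongr
  have hpos : 0 < (1 + s / m) ^ k := by positivity
  have h6 : Real.exp (-s) ≤ ((1 + s / m) ^ k)⁻¹ := by
    rw [Real.exp_neg]
    exact inv_anti₀ hpos h1
  have h7 : ((1 + s / m) ^ k)⁻¹ ≤ Real.exp (-s) * Real.exp δ := by
    rw [← Real.exp_add]
    have : Real.exp (-s + δ) = (Real.exp (s - δ))⁻¹ := by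
      rw [← Real.exp_neg]
      congr 1
      ring
    rw [this]
    exact inv_anti₀ (Real.exp_pos _) h2
  have h8 : Real.exp δ ≤ 1 + 2 * δ := by
    have h9 : 1 - δ ≤ Real.exp (-δ) := by
      have := Real.add_one_le_exp (-δ)
      linarith
    rw [Real.exp_neg] at h9
    have hp : 0 < 1 - δ := by linarith
    have h10 : Real.exp δ ≤ (1 - δ)⁻¹ := by
      rw [le_inv_comm₀ (Real.exp_pos _) hp]
      exact h9
    refine h10.trans ?_
    rw [inv_le_iff_one_le_mul₀ hp]
    nlinarith
  have h11 : Real.exp (-s) ≤ 1 := by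
    rw [Real.exp_le_one_iff]
    linarith
  rw [abs_of_nonneg (by linarith)]
  have h12 : 0 < Real.exp (-s) := Real.exp_pos _
  nlinarith

/-- approximation of `exp (-(p / (q + 1)))` -/
def expCode (p q n : ℕ) : RatCode :=
  ((2 * (p ^ 2 + 1) * (n + 1) * (q + 1)) ^ (2 * (p ^ 2 + 1) * (n + 1)), 0,
    (2 * (p ^ 2 + 1) * (n + 1) * (q + 1) + p) ^ (2 * (p ^ 2 + 1) * (n + 1)) - 1)

lemma expCode_spec (p q n : ℕ) :
    |ratVal (expCode p q n) - Real.exp (-((p:ℝ) / ((q:ℝ) + 1)))| ≤ 1 / ((n:ℝ) + 1) := by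
  set k : ℕ := 2 * (p ^ 2 + 1) * (n + 1) with hk
  have hq : (0:ℝ) < (q:ℝ) + 1 := den_pos q
  have hn : (0:ℝ) < (n:ℝ) + 1 := den_pos n
  have hkpos : (0:ℝ) < (k:ℝ) := by
    rw [hk]
    push_cast
    positivity
  set s : ℝ := (p:ℝ) / ((q:ℝ) + 1) with hs
  have hs0 : 0 ≤ s := by positivity
  have hsp : s ≤ p := by
    rw [hs]
    apply div_le_self (by positivity)
    have : (0:ℝ) ≤ q := by positivity
    linarith
  have hval : ratVal (expCode p q n) = ((1 + s / (k:ℝ)) ^ k)⁻¹ := by
    unfold ratVal expCode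
    simp only [← hk]
    have h1 : 1 ≤ (k * (q + 1) + p) ^ k := by
      apply Nat.one_le_pow
      have : 0 < k := by exact_mod_cast hkpos
      positivity
    rw [Nat.cast_sub h1]
    push_cast
    rw [sub_zero, sub_add_cancel, ← div_pow, ← inv_pow]
    congr 1
    rw [hs]
    field_simp
  have hsq : s ^ 2 / (k:ℝ) ≤ 1 / (2 * ((n:ℝ) + 1)) := by
    rw [div_le_div_iff₀ hkpos (by positivity)]
    have h2 : s ^ 2 ≤ (p:ℝ) ^ 2 := by gcongr
    have h3 : (k:ℝ) = 2 * ((p:ℝ) ^ 2 + 1) * ((n:ℝ) + 1) := by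
      rw [hk]
      push_cast
      ring
    rw [h3]
    nlinarith
  have hhalf : s ^ 2 / (k:ℝ) ≤ 1 / 2 := by
    refine hsq.trans ?_
    apply one_div_le_one_div_of_le (by norm_num)
    have : (0:ℝ) ≤ n := by positivity
    linarith
  have h4 := exp_approx hs0 k rfl hkpos hhalf
  rw [hval]
  refine h4.trans ?_
  calc 2 * (s ^ 2 / (k:ℝ)) ≤ 2 * (1 / (2 * ((n:ℝ) + 1))) := by gcongr
    _ = 1 / ((n:ℝ) + 1) := by field_simp

variable {α : Type} [Primcodable α]

lemma CR.exp {f g : α → ℕ} (hf : Primrec f) (hg : Primrec g) :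
    CR fun a => Real.exp (-((f a : ℝ) / ((g a : ℝ) + 1))) := by
  refine ⟨fun a n => expCode (f a) (g a) n, ?_, fun a n => expCode_spec _ _ _⟩
  apply Primrec.to_comp
  have hf' : Primrec fun p : α × ℕ => f p.1 := hf.comp Primrec.fst
  have hg' : Primrec fun p : α × ℕ => g p.1 := hg.comp Primrec.fst
  have hk : Primrec fun p : α × ℕ => 2 * (f p.1 ^ 2 + 1) * (p.2 + 1) :=
    prim_mul (prim_mul (prim_c 2) (prim_add (prim_pow hf' (prim_c 2)) (prim_c 1)))
      (prim_add Primrec.snd (prim_c 1))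
  unfold expCode
  refine prim_triple ?_ (prim_c 0) ?_
  · exact prim_pow (prim_mul hk (prim_add hg' (prim_c 1))) hk
  · exact prim_sub (prim_pow (prim_add (prim_mul hk (prim_add hg' (prim_c 1))) hf') hk) (prim_c 1)

end Vale.Agent.P113
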