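import Vale.Agent.P113.Defs

open Set MeasureTheory Filter Topology
open scoped ContDiff

namespace Vale.Agent.P113

lemma torusFun_insertNth {E : Type} {g : Space → E} (hg : TorusFun g) (i : Fin 3)
    (y : Fin 2 → ℝ) : g (Fin.insertNth (α := fun _ => ℝ) i (1 : ℝ) y) = g (Fin.insertNth (α := fun _ => ℝ) i (0 : ℝ) y) := by
  have h := hg (Fin.insertNth (α := fun _ => ℝ) i (0 : ℝ) y) (Pi.single i 1)
  rw [← h]
  congr 1
  funext k
  rcases eq_or_ne k i with rfl | hk
  · simp
  · obtain ⟨k', rfl⟩ := Fin.exists_succAbove_eq hk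
    simp

lemma div_integral_zero {Φ : Space → Space} (h : ContDiff ℝ 1 Φ) (hp : TorusFun Φ) :
    ∫ x in Icc (0 : Space) 1, ∑ j, pd j Φ x j = 0 := by
  have hc : Continuous (fderiv ℝ Φ) := h.continuous_fderiv (by norm_num)
  have hi : Continuous (fun x => ∑ j, pd j Φ x j) := by
    unfold pd
    refine continuous_finsetSum _ fun j _ => ?_
    have : Continuous fun x => (fderiv ℝ Φ x) (Pi.single j 1) := hc.clm_apply continuous_const
    exact (continuous_apply j).comp this
  have key := integral_divergence_of_hasFDerivAt_off_countable (n := 2) (0 : Space) 1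
    (zero_le_one) Φ (fderiv ℝ Φ) ∅ countable_empty h.continuous.continuousOn
    (fun x _ => (h.differentiable (by norm_num) x).hasFDerivAt)
    (hi.continuousOn.integrableOn_compact isCompact_Icc)
  unfold pd
  rw [key]
  apply Finset.sum_eq_zero
  intro i _
  have h2 : ∀ y : Fin 2 → ℝ, Φ (Fin.insertNth (α := fun _ => ℝ) i ((1 : Space) i) y) i
      = Φ (Fin.insertNth (α := fun _ => ℝ) i ((0 : Space) i) y) i := by
    intro y
    have := torusFun_insertNth hp i y
    simp only [Pi.one_apply, Pi.zero_apply]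
    rw [this]
  simp only [h2, sub_self]

lemma hasDerivAt_line {E : Type} [NormedAddCommGroup E] [NormedSpace ℝ E] {g : Space → E}
    {x : Space} (h : DifferentiableAt ℝ g x) (j : Fin 3) :
    HasDerivAt (fun s : ℝ => g (x + s • (Pi.single j (1 : ℝ) : Space))) (pd j g x) 0 := by
  have := h.hasFDerivAt.hasLineDerivAt (Pi.single j (1 : ℝ) : Space)
  exact this

lemma hasDerivAt_line_apply {g : Space → Space}
    {x : Space} (h : DifferentiableAt ℝ g x) (j i : Fin 3) :
    HasDerivAt (fun s : ℝ => g (x + s • (Pi.single j (1 : ℝ) : Space)) i) (pd j g x i) 0 :=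
  hasDerivAt_pi.mp (hasDerivAt_line h j) i

/-- The flux used in the energy identity. -/
noncomputable def flux (ν : ℝ) (U V : Space → Space) (P Q : Space → ℝ) : Space → Space :=
  fun x j => -(1/2) * U x j * (∑ i, (U x i - V x i)^2) - (U x j - V x j) * (P x - Q x)
    + ν * ∑ i, (U x i - V x i) * (pd j U x i - pd j V x i)

lemma contDiff_pd {U : Space → Space} (hU : ContDiff ℝ 2 U) (j : Fin 3) :
    ContDiff ℝ 1 (pd j U) := by
  unfold pd
  have h : ContDiff ℝ 1 (fderiv ℝ U) := hU.fderiv_right (by norm_num)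
  exact h.clm_apply contDiff_const

lemma contDiff_flux {ν : ℝ} {U V : Space → Space} {P Q : Space → ℝ}
    (hU : ContDiff ℝ 2 U) (hV : ContDiff ℝ 2 V) (hP : ContDiff ℝ 1 P) (hQ : ContDiff ℝ 1 Q) :
    ContDiff ℝ 1 (flux ν U V P Q) := by
  have hU1 : ContDiff ℝ 1 U := hU.of_le (by norm_num)
  have hV1 : ContDiff ℝ 1 V := hV.of_le (by norm_num)
  have hUi := fun i => (contDiff_pi.mp hU1) i
  have hVi := fun i => (contDiff_pi.mp hV1) i
  have hUij := fun j i => (contDiff_pi.mp (contDiff_pd hU j)) i
  have hVij := fun j i => (contDiff_pi.mp (contDiff_pd hV j)) i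
  unfold flux
  rw [contDiff_pi]
  intro j
  refine ContDiff.add (ContDiff.sub (ContDiff.mul (contDiff_const.mul (hUi j)) ?_) ?_) ?_
  · exact ContDiff.sum fun i _ => ((hUi i).sub (hVi i)).pow 2
  · exact ((hUi j).sub (hVi j)).mul (hP.sub hQ)
  · exact contDiff_const.mul (ContDiff.sum fun i _ => ((hUi i).sub (hVi i)).mul
      ((hUij j i).sub (hVij j i)))

lemma pd_flux {ν : ℝ} {U V : Space → Space} {P Q : Space → ℝ}
    (hU : ContDiff ℝ 2 U) (hV : ContDiff ℝ 2 V) (hP : ContDiff ℝ 1 P) (hQ : ContDiff ℝ 1 Q)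
    (x : Space) (j : Fin 3) :
    pd j (flux ν U V P Q) x j =
      -(1/2) * pd j U x j * (∑ i, (U x i - V x i)^2)
      - U x j * (∑ i, (U x i - V x i) * (pd j U x i - pd j V x i))
      - (pd j U x j - pd j V x j) * (P x - Q x)
      - (U x j - V x j) * (pd j P x - pd j Q x)
      + ν * ∑ i, ((pd j U x i - pd j V x i)^2
        + (U x i - V x i) * (pd j (pd j U) x i - pd j (pd j V) x i)) := by
  have h1 : (1 : WithTop ℕ∞) ≠ 0 := by norm_num
  have h2 : (2 : WithTop ℕ∞) ≠ 0 := by norm_num
  have dU := fun i => hasDerivAt_line_apply (hU.differentiable h2 x) j i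
  have dV := fun i => hasDerivAt_line_apply (hV.differentiable h2 x) j i
  have dUU := fun i => hasDerivAt_line_apply ((contDiff_pd hU j).differentiable h1 x) j i
  have dVV := fun i => hasDerivAt_line_apply ((contDiff_pd hV j).differentiable h1 x) j i
  have dP := hasDerivAt_line (hP.differentiable h1 x) j
  have dQ := hasDerivAt_line (hQ.differentiable h1 x) j
  have dF := hasDerivAt_line_apply ((contDiff_flux (ν := ν) hU hV hP hQ).differentiable h1 x) j j
  have d := HasDerivAt.add (HasDerivAt.sub (HasDerivAt.mul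
      ((hasDerivAt_const (0 : ℝ) (-(1/2) : ℝ)).mul (dU j))
      (HasDerivAt.fun_sum (u := Finset.univ) fun i _ => ((dU i).sub (dV i)).pow 2))
      (((dU j).sub (dV j)).mul (dP.sub dQ)))
      ((hasDerivAt_const (0 : ℝ) ν).mul (HasDerivAt.fun_sum (u := Finset.univ)
        fun i _ => ((dU i).sub (dV i)).mul ((dUU i).sub (dVV i))))
  rw [dF.unique d]
  simp only [zero_smul, add_zero, Fin.sum_univ_three, Pi.sub_apply, Pi.mul_apply, Pi.pow_apply]
  ring

lemma energy_identity {ν : ℝ} {U V Ut Vt F : Space → Space} {P Q : Space → ℝ}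
    (hU : ContDiff ℝ 2 U) (hV : ContDiff ℝ 2 V) (hP : ContDiff ℝ 1 P) (hQ : ContDiff ℝ 1 Q)
    (x : Space)
    (divU : ∑ j, pd j U x j = 0) (divV : ∑ j, pd j V x j = 0)
    (mU : ∀ i, Ut x i + ∑ j, U x j * pd j U x i
      = - pd i P x + ν * ∑ j, pd j (pd j U) x i + F x i)
    (mV : ∀ i, Vt x i + ∑ j, V x j * pd j V x i
      = - pd i Q x + ν * ∑ j, pd j (pd j V) x i + F x i) :
    ∑ i, (U x i - V x i) * (Ut x i - Vt x i) = ∑ j, pd j (flux ν U V P Q) x j
      - ν * (∑ i, ∑ j, (pd j U x i - pd j V x i)^2)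
      - ∑ i, ∑ j, (U x i - V x i) * (U x j - V x j) * pd j V x i := by
  simp only [pd_flux hU hV hP hQ]
  have mU0 := mU 0
  have mU1 := mU 1
  have mU2 := mU 2
  have mV0 := mV 0
  have mV1 := mV 1
  have mV2 := mV 2
  simp only [Fin.sum_univ_three] at *
  linear_combination (U x 0 - V x 0) * (mU0 - mV0) + (U x 1 - V x 1) * (mU1 - mV1)
    + (U x 2 - V x 2) * (mU2 - mV2)
    + ((1/2) * ((U x 0 - V x 0)^2 + (U x 1 - V x 1)^2 + (U x 2 - V x 2)^2) + (P x - Q x)) * divU
    - (P x - Q x) * divV

variable {ν T : ℝ} {f u v : ℝ → Space → Space} {p q : ℝ → Space → ℝ}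

lemma slice_continuous {E : Type} [TopologicalSpace E] {g : ℝ × Space → E}
    (h : ContinuousOn g (Icc 0 T ×ˢ univ)) {t : ℝ} (ht : t ∈ Icc 0 T) :
    Continuous (fun x => g (t, x)) := by
  rw [← continuousOn_univ]
  refine h.comp (by fun_prop) ?_
  intro x _
  exact ⟨ht, mem_univ _⟩

lemma slice_continuous_t {E : Type} [TopologicalSpace E] {g : ℝ × Space → E}
    (h : ContinuousOn g (Icc 0 T ×ˢ univ)) (x : Space) :
    ContinuousOn (fun t => g (t, x)) (Icc 0 T) := by
  refine h.comp (by fun_prop) ?_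
  intro t ht
  exact ⟨ht, mem_univ _⟩

lemma exists_grad_bound (hv : IsClassicalSolution ν T f v q) :
    ∃ B : ℝ, 0 ≤ B ∧ ∀ t ∈ Icc 0 T, ∀ x ∈ Icc (0 : Space) 1, ∀ i j,
      |pd j (v t) x i| ≤ B := by
  have hK : IsCompact (Icc (0:ℝ) T ×ˢ Icc (0 : Space) 1) := isCompact_Icc.prod isCompact_Icc
  obtain ⟨C, hC⟩ := hK.exists_bound_of_continuousOn
    (hv.continuous_du.mono (prod_mono subset_rfl (subset_univ _)))
  refine ⟨max C 0, le_max_right _ _, fun t ht x hx i j => ?_⟩
  have h1 := hC (t, x) ⟨ht, hx⟩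
  have h2 : ‖pd j (v t) x‖ ≤ ‖fderiv ℝ (v t) x‖ * ‖(Pi.single j 1 : Space)‖ :=
    (fderiv ℝ (v t) x).le_opNorm _
  have h3 : ‖(Pi.single j 1 : Space)‖ = 1 := by simp [Pi.norm_single]
  rw [h3, mul_one] at h2
  have h4 : |pd j (v t) x i| ≤ ‖pd j (v t) x‖ := norm_le_pi_norm (pd j (v t) x) i
  exact (h4.trans (h2.trans h1)).trans (le_max_left _ _)

/-- kinetic energy of the difference -/
noncomputable def en (u v : ℝ → Space → Space) (t : ℝ) : ℝ :=
  ∫ x in Icc (0 : Space) 1, ∑ i, (u t x i - v t x i)^2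

lemma continuousOn_sq (hu : IsClassicalSolution ν T f u p) (hv : IsClassicalSolution ν T f v q) :
    ContinuousOn (fun r : ℝ × Space => ∑ i, (u r.1 r.2 i - v r.1 r.2 i)^2)
      (Icc 0 T ×ˢ univ) := by
  refine continuousOn_finsetSum _ fun i _ => ?_
  exact ((continuousOn_pi.mp hu.continuous_u i).sub (continuousOn_pi.mp hv.continuous_u i)).pow 2

lemma continuousOn_en (hu : IsClassicalSolution ν T f u p) (hv : IsClassicalSolution ν T f v q) :
    ContinuousOn (en u v) (Icc 0 T) := by
  have hc := continuousOn_sq hu hv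
  have hK : IsCompact (Icc (0:ℝ) T ×ˢ Icc (0 : Space) 1) := isCompact_Icc.prod isCompact_Icc
  obtain ⟨C, hC⟩ := hK.exists_bound_of_continuousOn
    (hc.mono (prod_mono subset_rfl (subset_univ _)))
  unfold en
  refine continuousOn_of_dominated (bound := fun _ => C) ?_ ?_ ?_ ?_
  · intro t ht
    exact (slice_continuous hc ht).aestronglyMeasurable
  · intro t ht
    rw [ae_restrict_iff' measurableSet_Icc]
    exact ae_of_all _ fun x hx => hC (t, x) ⟨ht, hx⟩
  · exact integrableOn_const (by simp [Real.volume_Icc_pi])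
  · exact ae_of_all _ fun x => slice_continuous_t hc x

/-- time derivative -/
noncomputable def td (T : ℝ) (u : ℝ → Space → Space) (t : ℝ) (x : Space) : Space :=
  derivWithin (fun s => u s x) (Icc 0 T) t

lemma hasDerivAt_u (hu : IsClassicalSolution ν T f u p) {t : ℝ} (ht : t ∈ Ioo 0 T) (x : Space)
    (i : Fin 3) : HasDerivAt (fun s => u s x i) (td T u t x i) t := by
  have h := (hu.differentiable_t x t (Ioo_subset_Icc_self ht)).hasDerivWithinAt.hasDerivAt
    (Icc_mem_nhds ht.1 ht.2)
  exact hasDerivAt_pi.mp h i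

lemma continuousOn_dsq (hu : IsClassicalSolution ν T f u p) (hv : IsClassicalSolution ν T f v q) :
    ContinuousOn (fun r : ℝ × Space => ∑ i, 2 * (u r.1 r.2 i - v r.1 r.2 i) *
      (td T u r.1 r.2 i - td T v r.1 r.2 i)) (Icc 0 T ×ˢ univ) := by
  refine continuousOn_finsetSum _ fun i _ => ?_
  have h1 : ContinuousOn (fun r : ℝ × Space => td T u r.1 r.2 i) (Icc 0 T ×ˢ univ) :=
    continuousOn_pi.mp hu.continuous_ut i
  have h2 : ContinuousOn (fun r : ℝ × Space => td T v r.1 r.2 i) (Icc 0 T ×ˢ univ) :=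
    continuousOn_pi.mp hv.continuous_ut i
  exact (continuousOn_const.mul ((continuousOn_pi.mp hu.continuous_u i).sub
    (continuousOn_pi.mp hv.continuous_u i))).mul (h1.sub h2)

lemma hasDerivAt_en (hu : IsClassicalSolution ν T f u p) (hv : IsClassicalSolution ν T f v q)
    {t : ℝ} (ht : t ∈ Ioo 0 T) :
    HasDerivAt (en u v) (∫ x in Icc (0 : Space) 1, ∑ i, 2 * (u t x i - v t x i) *
      (td T u t x i - td T v t x i)) t := by
  have hc := continuousOn_sq hu hv
  have hd := continuousOn_dsq hu hv
  have hK : IsCompact (Icc (0:ℝ) T ×ˢ Icc (0 : Space) 1) := isCompact_Icc.prod isCompact_Icc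
  obtain ⟨C, hC⟩ := hK.exists_bound_of_continuousOn
    (hd.mono (prod_mono subset_rfl (subset_univ _)))
  have htI : t ∈ Icc 0 T := Ioo_subset_Icc_self ht
  refine (hasDerivAt_integral_of_dominated_loc_of_deriv_le (s := Ioo 0 T)
    (F := fun t x => ∑ i, (u t x i - v t x i)^2)
    (F' := fun t x => ∑ i, 2 * (u t x i - v t x i) * (td T u t x i - td T v t x i))
    (bound := fun _ => C) (Ioo_mem_nhds ht.1 ht.2) ?_ ?_ ?_ ?_ ?_ ?_).2
  · filter_upwards [Ioo_mem_nhds ht.1 ht.2] with s hs
    exact (slice_continuous hc (Ioo_subset_Icc_self hs)).aestronglyMeasurable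
  · exact (slice_continuous hc htI).continuousOn.integrableOn_compact isCompact_Icc
  · exact (slice_continuous hd htI).aestronglyMeasurable
  · rw [ae_restrict_iff' measurableSet_Icc]
    exact ae_of_all _ fun x hx s hs => hC (s, x) ⟨Ioo_subset_Icc_self hs, hx⟩
  · exact integrableOn_const (by simp [Real.volume_Icc_pi])
  · refine ae_of_all _ fun x s hs => ?_
    refine HasDerivAt.fun_sum fun i _ => ?_
    exact (((hasDerivAt_u hu hs x i).sub (hasDerivAt_u hv hs x i)).pow 2).congr_deriv
      (by simp only [Pi.sub_apply]; norm_num)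

lemma cube_volume : (volume (Icc (0 : Space) 1)).toReal = 1 := by
  rw [Real.volume_Icc_pi]
  simp

lemma torusFun_flux {U V : Space → Space} {P Q : Space → ℝ}
    (hU : TorusFun U) (hV : TorusFun V) (hP : TorusFun P) (hQ : TorusFun Q) :
    TorusFun (flux ν U V P Q) := by
  have hpd : ∀ {W : Space → Space}, TorusFun W → ∀ j, TorusFun (pd j W) := by
    intro W hW j x k
    unfold pd
    have h1 : (fun y : Space => W (y + fun i => (k i : ℝ))) = W := by
      funext y
      exact hW y k
    have h2 := fderiv_comp_add_right (𝕜 := ℝ) (f := W) (x := x) (fun i => (k i : ℝ))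
    rw [h1] at h2
    have h3 : (x + fun i => (k i : ℝ)) = fun i => x i + (k i : ℝ) := rfl
    rw [h3] at h2
    rw [h2]
  intro x k
  unfold flux
  funext j
  simp only [hU x k, hV x k, hP x k, hQ x k, hpd hU j x k, hpd hV j x k]

lemma energy_ineq (hν : 0 ≤ ν) (hu : IsClassicalSolution ν T f u p)
    (hv : IsClassicalSolution ν T f v q) {B : ℝ} (hB : 0 ≤ B)
    (hb : ∀ t ∈ Icc 0 T, ∀ x ∈ Icc (0 : Space) 1, ∀ i j, |pd j (v t) x i| ≤ B)
    {t : ℝ} (ht : t ∈ Ioo 0 T) :
    (∫ x in Icc (0 : Space) 1, ∑ i, 2 * (u t x i - v t x i) *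
      (td T u t x i - td T v t x i)) ≤ 6 * B * en u v t := by
  have htI : t ∈ Icc 0 T := Ioo_subset_Icc_self ht
  have hc := slice_continuous (continuousOn_sq hu hv) htI
  have hd := slice_continuous (continuousOn_dsq hu hv) htI
  simp only at hc hd
  set Φ := flux ν (u t) (v t) (p t) (q t) with hΦ
  have hΦc : ContDiff ℝ 1 Φ := contDiff_flux (hu.contDiff_u t htI) (hv.contDiff_u t htI)
    (hu.contDiff_p t htI) (hv.contDiff_p t htI)
  have hΦt : TorusFun Φ := torusFun_flux (hu.torus_u t htI) (hv.torus_u t htI)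
    (hu.torus_p t htI) (hv.torus_p t htI)
  have hdiv := div_integral_zero hΦc hΦt
  have hdc : Continuous (fun x => ∑ j, pd j Φ x j) := by
    unfold pd
    refine continuous_finsetSum _ fun j _ => ?_
    have h1 : Continuous fun x => (fderiv ℝ Φ x) (Pi.single j 1) :=
      (hΦc.continuous_fderiv (by norm_num)).clm_apply continuous_const
    exact (continuous_apply j).comp h1
  have hi1 : IntegrableOn (fun x => ∑ i, 2 * (u t x i - v t x i) *
      (td T u t x i - td T v t x i)) (Icc (0 : Space) 1) :=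
    hd.continuousOn.integrableOn_compact isCompact_Icc
  have hi2 : IntegrableOn (fun x => ∑ j, pd j Φ x j) (Icc (0 : Space) 1) :=
    hdc.continuousOn.integrableOn_compact isCompact_Icc
  have hi3 : IntegrableOn (fun x => ∑ i, (u t x i - v t x i)^2) (Icc (0 : Space) 1) :=
    hc.continuousOn.integrableOn_compact isCompact_Icc
  have hle : ∀ x ∈ Icc (0 : Space) 1, (∑ i, 2 * (u t x i - v t x i) *
      (td T u t x i - td T v t x i)) ≤ 2 * (∑ j, pd j Φ x j)
        + 6 * B * ∑ i, (u t x i - v t x i)^2 := by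
    intro x hx
    have hid := energy_identity (ν := ν) (Ut := td T u t) (Vt := td T v t) (F := f t)
      (hu.contDiff_u t htI) (hv.contDiff_u t htI) (hu.contDiff_p t htI) (hv.contDiff_p t htI) x
      (hu.div_free t htI x) (hv.div_free t htI x) (hu.momentum t htI x) (hv.momentum t htI x)
    rw [← hΦ] at hid
    have hs : (∑ i, 2 * (u t x i - v t x i) * (td T u t x i - td T v t x i))
        = 2 * ∑ i, (u t x i - v t x i) * (td T u t x i - td T v t x i) := by
      rw [Finset.mul_sum]
      exact Finset.sum_congr rfl fun i _ => by ring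
    rw [hs, hid]
    have hpos : 0 ≤ ν * (∑ i, ∑ j, (pd j (u t) x i - pd j (v t) x i)^2) := by positivity
    have hbd : -(∑ i, ∑ j, (u t x i - v t x i) * (u t x j - v t x j) * pd j (v t) x i)
        ≤ 3 * B * ∑ i, (u t x i - v t x i)^2 := by
      have hterm : ∀ i j : Fin 3, -((u t x i - v t x i) * (u t x j - v t x j) * pd j (v t) x i)
          ≤ B * ((u t x i - v t x i)^2 + (u t x j - v t x j)^2) / 2 := by
        intro i j
        have hbij := hb t htI x hx i j
        have h5 : -((u t x i - v t x i) * (u t x j - v t x j) * pd j (v t) x i) ≤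
            |u t x i - v t x i| * |u t x j - v t x j| * B := by
          calc -((u t x i - v t x i) * (u t x j - v t x j) * pd j (v t) x i)
              ≤ |(u t x i - v t x i) * (u t x j - v t x j) * pd j (v t) x i| := neg_le_abs _
            _ = |u t x i - v t x i| * |u t x j - v t x j| * |pd j (v t) x i| := by
                rw [abs_mul, abs_mul]
            _ ≤ _ := by gcongr
        have h6 : |u t x i - v t x i| * |u t x j - v t x j| ≤
            ((u t x i - v t x i)^2 + (u t x j - v t x j)^2) / 2 := by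
          have := sq_nonneg (|u t x i - v t x i| - |u t x j - v t x j|)
          nlinarith [sq_abs (u t x i - v t x i), sq_abs (u t x j - v t x j)]
        calc _ ≤ |u t x i - v t x i| * |u t x j - v t x j| * B := h5
          _ ≤ ((u t x i - v t x i)^2 + (u t x j - v t x j)^2) / 2 * B := by gcongr
          _ = _ := by ring
      rw [← Finset.sum_neg_distrib]
      calc ∑ i, -(∑ j, (u t x i - v t x i) * (u t x j - v t x j) * pd j (v t) x i)
          ≤ ∑ i, ∑ j, B * ((u t x i - v t x i)^2 + (u t x j - v t x j)^2) / 2 := by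
            refine Finset.sum_le_sum fun i _ => ?_
            rw [← Finset.sum_neg_distrib]
            exact Finset.sum_le_sum fun j _ => hterm i j
        _ = 3 * B * ∑ i, (u t x i - v t x i)^2 := by
            simp only [Fin.sum_univ_three]
            ring
    linarith
  calc (∫ x in Icc (0 : Space) 1, ∑ i, 2 * (u t x i - v t x i) *
      (td T u t x i - td T v t x i))
      ≤ ∫ x in Icc (0 : Space) 1, (2 * (∑ j, pd j Φ x j)
        + 6 * B * ∑ i, (u t x i - v t x i)^2) :=
        setIntegral_mono_on hi1 ((hi2.const_mul 2).add (hi3.const_mul _)) measurableSet_Icc hle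
    _ = 6 * B * en u v t := by
        rw [integral_add (hi2.const_mul 2) (hi3.const_mul _), integral_const_mul, hdiv,
          integral_const_mul]
        simp [en]

lemma en_eq_zero (hν : 0 ≤ ν) (hT : 0 < T) (hu : IsClassicalSolution ν T f u p)
    (hv : IsClassicalSolution ν T f v q) {t : ℝ} (ht : t ∈ Icc 0 T) : en u v t = 0 := by
  obtain ⟨B, hB, hb⟩ := exists_grad_bound hv
  have hnn : 0 ≤ en u v t := by
    unfold en
    exact setIntegral_nonneg measurableSet_Icc fun x _ => by positivity
  refine le_antisymm ?_ hnn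
  have h0 : en u v 0 = 0 := by
    unfold en
    simp [hu.initial, hv.initial]
  have hanti : AntitoneOn (fun s => Real.exp (-(6 * B) * s) * en u v s) (Icc 0 T) := by
    have hd : ∀ s ∈ Ioo 0 T, HasDerivAt (fun s => Real.exp (-(6 * B) * s) * en u v s)
        (Real.exp (-(6 * B) * s) * (-(6 * B)) * en u v s + Real.exp (-(6 * B) * s) *
          (∫ x in Icc (0 : Space) 1, ∑ i, 2 * (u s x i - v s x i) *
      (td T u s x i - td T v s x i))) s := by
      intro s hs
      have h1 : HasDerivAt (fun s : ℝ => Real.exp (-(6 * B) * s))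
          (Real.exp (-(6 * B) * s) * (-(6 * B))) s := by
        have := ((hasDerivAt_id s).const_mul (-(6 * B))).exp
        simpa using this
      exact h1.mul (hasDerivAt_en hu hv hs)
    apply antitoneOn_of_deriv_nonpos (convex_Icc 0 T)
    · exact (by fun_prop : Continuous fun s : ℝ => Real.exp (-(6 * B) * s)).continuousOn.mul
        (continuousOn_en hu hv)
    · rw [interior_Icc]
      intro s hs
      exact (hd s hs).differentiableAt.differentiableWithinAt
    · rw [interior_Icc]
      intro s hs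
      rw [(hd s hs).deriv]
      have h2 := energy_ineq hν hu hv hB hb hs
      have h3 : 0 < Real.exp (-(6 * B) * s) := Real.exp_pos _
      nlinarith
  have h4 := hanti (left_mem_Icc.mpr hT.le) ht ht.1
  simp only [h0, mul_zero] at h4
  have h5 : 0 < Real.exp (-(6 * B) * t) := Real.exp_pos _
  by_contra hcon
  rw [not_le] at hcon
  have := mul_pos h5 hcon
  linarith

lemma closure_interior_cube : Icc (0 : Space) 1 ⊆ closure (interior (Icc (0 : Space) 1)) := by
  have hconv : Convex ℝ (Icc (0 : Space) 1) := convex_Icc _ _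
  have hne : (interior (Icc (0 : Space) 1)).Nonempty := by
    refine ⟨fun _ => 1/2, ?_⟩
    rw [mem_interior]
    refine ⟨Set.pi univ fun _ => Ioo (0:ℝ) 1, ?_, isOpen_set_pi finite_univ fun _ _ => isOpen_Ioo, ?_⟩
    · intro x hx
      exact ⟨fun i => (hx i (mem_univ i)).1.le, fun i => (hx i (mem_univ i)).2.le⟩
    · intro i _
      constructor <;> norm_num
  rw [hconv.closure_interior_eq_closure_of_nonempty_interior hne]
  exact subset_closure

lemma eqOn_cube_of_integral_zero {g : Space → ℝ} (hg : Continuous g) (hnn : ∀ x, 0 ≤ g x)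
    (h : ∫ x in Icc (0 : Space) 1, g x = 0) : ∀ x ∈ Icc (0 : Space) 1, g x = 0 := by
  have hi : IntegrableOn g (Icc (0 : Space) 1) := hg.continuousOn.integrableOn_compact isCompact_Icc
  rw [setIntegral_eq_zero_iff_of_nonneg_ae (ae_of_all _ hnn) hi] at h
  exact Measure.eqOn_of_ae_eq h hg.continuousOn continuousOn_const closure_interior_cube

lemma torus_reduce {E : Type} {g : Space → E} (hg : TorusFun g) (x : Space) :
    ∃ y ∈ Icc (0 : Space) 1, g x = g y := by
  refine ⟨fun i => Int.fract (x i), ⟨fun i => Int.fract_nonneg _, fun i => (Int.fract_lt_one _).le⟩,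
    ?_⟩
  have := hg (fun i => Int.fract (x i)) (fun i => ⌊x i⌋)
  rw [← this]
  congr 1
  funext i
  simp

theorem unique_u (hν : 0 ≤ ν) (hT : 0 < T) (hu : IsClassicalSolution ν T f u p)
    (hv : IsClassicalSolution ν T f v q) {t : ℝ} (ht : t ∈ Icc 0 T) : u t = v t := by
  have h := en_eq_zero hν hT hu hv ht
  have hc := slice_continuous (continuousOn_sq hu hv) ht
  simp only at hc
  have h0 := eqOn_cube_of_integral_zero hc (fun x => by positivity) h
  have h1 : ∀ x, ∑ i, (u t x i - v t x i)^2 = 0 := by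
    intro x
    have htor : TorusFun (fun x => ∑ i, (u t x i - v t x i)^2) := by
      intro y k
      simp only [hu.torus_u t ht y k, hv.torus_u t ht y k]
    obtain ⟨y, hy, hxy⟩ := torus_reduce htor x
    rw [hxy]
    exact h0 y hy
  funext x
  funext i
  have h2 := (Finset.sum_eq_zero_iff_of_nonneg (fun i _ => sq_nonneg (u t x i - v t x i))).mp
    (h1 x) i (Finset.mem_univ i)
  have h3 : u t x i - v t x i = 0 := by simpa using h2
  linarith

theorem unique_solution (hν : 0 ≤ ν) (hT : 0 < T) (hu : IsClassicalSolution ν T f u p)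
    (hv : IsClassicalSolution ν T f v q) {t : ℝ} (ht : t ∈ Icc 0 T) (x : Space) :
    u t x = v t x ∧ p t x = q t x := by
  have huv : ∀ s ∈ Icc 0 T, u s = v s := fun s hs => unique_u hν hT hu hv hs
  refine ⟨by rw [huv t ht], ?_⟩
  have hgrad : ∀ y i, pd i (p t) y = pd i (q t) y := by
    intro y i
    have h1 := hu.momentum t ht y i
    have h2 := hv.momentum t ht y i
    have h3 : derivWithin (fun s => u s y) (Icc 0 T) t = derivWithin (fun s => v s y) (Icc 0 T) t :=
      derivWithin_congr (fun s hs => by simp only [huv s hs]) (by simp only [huv t ht])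
    rw [h3, huv t ht] at h1
    linarith
  have hdp : Differentiable ℝ (p t) := (hu.contDiff_p t ht).differentiable (by norm_num)
  have hdq : Differentiable ℝ (q t) := (hv.contDiff_p t ht).differentiable (by norm_num)
  have hfd : ∀ y, fderiv ℝ (fun z => p t z - q t z) y = 0 := by
    intro y
    rw [fderiv_fun_sub (hdp y) (hdq y)]
    have : fderiv ℝ (p t) y = fderiv ℝ (q t) y := by
      apply ContinuousLinearMap.coe_injective
      refine LinearMap.pi_ext' fun i => ?_
      ext
      exact hgrad y i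
    rw [this, sub_self]
  have hconst := is_const_of_fderiv_eq_zero (hdp.sub hdq) hfd
  have hc2 : ∀ y, p t y = q t y + (p t x - q t x) := by
    intro y
    have := hconst y x
    simp only [Pi.sub_apply] at this
    linarith
  have hm1 := hu.mean_zero t ht
  have hm2 := hv.mean_zero t ht
  have hqi : IntegrableOn (q t) (Icc (0 : Space) 1) :=
    hdq.continuous.continuousOn.integrableOn_compact isCompact_Icc
  have hm3 : ∫ y in Icc (0 : Space) 1, p t y = ∫ y in Icc (0 : Space) 1, (q t y + (p t x - q t x)) := by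
    congr 1
    funext y
    exact hc2 y
  rw [integral_add hqi (integrableOn_const (by simp [Real.volume_Icc_pi]))] at hm3
  rw [hm1, hm2] at hm3
  simp only [integral_const, Measure.real, Measure.restrict_apply_univ, cube_volume,
    smul_eq_mul, one_mul, zero_add] at hm3
  linarith

end Vale.Agent.P113
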