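import Vale.Agent.P113.GComp
import Vale.Agent.P113.Uniq

open Set Filter Topology MeasureTheory
open scoped ContDiff

namespace Vale.Agent.P113

/-- pulses at times `≥ 1` -/
noncomputable def Q (n : ℕ) (t : ℝ) : ℝ := D n (Int.fract t) - D n t

noncomputable def Gp (M : Machine) (n : ℕ) (y : ℝ) : ℝ := G M n (Int.fract y)

lemma hasDerivAt_Q (n : ℕ) (t : ℝ) : HasDerivAt (Q n) (Q (n + 1) t) t :=
  (periodize hasDerivAt_D D_zero_left D_zero_right n t).sub (hasDerivAt_D n t)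

lemma hasDerivAt_Gp (M : Machine) (n : ℕ) (y : ℝ) : HasDerivAt (Gp M n) (Gp M (n + 1) y) y :=
  periodize (hasDerivAt_G M) (G_zero_left M) (G_zero_right M) n y

lemma Q_zero {n : ℕ} {t : ℝ} (h0 : 0 ≤ t) (h1 : t ≤ 1) : Q n t = 0 := by
  unfold Q
  rcases h1.lt_or_eq with h | rfl
  · rw [Int.fract_eq_self.mpr ⟨h0, h⟩, sub_self]
  · rw [Int.fract_one, D_zero_left n 0 le_rfl, D_zero_right n 1 le_rfl, sub_self]

lemma Q_of_one_le {n : ℕ} {t : ℝ} (h : 1 ≤ t) : Q n t = D n (Int.fract t) := by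
  unfold Q
  rw [D_zero_right n t h, sub_zero]

lemma Q_periodic {n : ℕ} {t : ℝ} (h : 1 ≤ t) : Q n (t + 1) = Q n t := by
  rw [Q_of_one_le h, Q_of_one_le (by linarith), Int.fract_add_one]

lemma Q_nonneg {t : ℝ} (h : 0 ≤ t) : 0 ≤ Q 0 t := by
  rcases le_or_gt t 1 with h1 | h1
  · rw [Q_zero h h1]
  · rw [Q_of_one_le h1.le, D_zero]
    exact bump_nonneg _

lemma D_mul_Q {m n : ℕ} {t : ℝ} (h : 0 ≤ t) : D m t * Q n t = 0 := by
  rcases le_or_gt t 1 with h1 | h1
  · rw [Q_zero h h1, mul_zero]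
  · rw [D_zero_right m t h1.le, zero_mul]

/-- the velocity field -/
noncomputable def vel (κ : ℝ) (M : Machine) (t : ℝ) (x : Space) : Space :=
  ![Q 0 t * Gp M 0 (x 1), κ * D 0 t, 0]

/-- the force -/
noncomputable def frc (κ ν : ℝ) (M : Machine) (t : ℝ) (x : Space) : Space :=
  ![Q 1 t * Gp M 0 (x 1) - ν * (Q 0 t * Gp M 2 (x 1)), κ * D 1 t, 0]

lemma contDiff_D' (n : ℕ) : ContDiff ℝ ∞ (D n) := contDiff_of_chain hasDerivAt_D n
lemma contDiff_Q (n : ℕ) : ContDiff ℝ ∞ (Q n) := contDiff_of_chain hasDerivAt_Q n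
lemma contDiff_Gp (M : Machine) (n : ℕ) : ContDiff ℝ ∞ (Gp M n) :=
  contDiff_of_chain (hasDerivAt_Gp M) n

lemma contDiff_coord : ContDiff ℝ ∞ (fun q : ℝ × Space => q.2 1) := by fun_prop

lemma contDiff_vel (κ : ℝ) (M : Machine) :
    ContDiff ℝ ∞ (fun q : ℝ × Space => vel κ M q.1 q.2) := by
  unfold vel
  rw [contDiff_pi]
  intro i
  fin_cases i
  · exact ((contDiff_Q 0).comp contDiff_fst).mul ((contDiff_Gp M 0).comp contDiff_coord)
  · exact contDiff_const.mul ((contDiff_D' 0).comp contDiff_fst)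
  · exact contDiff_const

lemma contDiff_frc (κ ν : ℝ) (M : Machine) :
    ContDiff ℝ ∞ (fun q : ℝ × Space => frc κ ν M q.1 q.2) := by
  unfold frc
  rw [contDiff_pi]
  intro i
  fin_cases i
  · exact (((contDiff_Q 1).comp contDiff_fst).mul ((contDiff_Gp M 0).comp contDiff_coord)).sub
      (contDiff_const.mul (((contDiff_Q 0).comp contDiff_fst).mul
        ((contDiff_Gp M 2).comp contDiff_coord)))
  · exact contDiff_const.mul ((contDiff_D' 1).comp contDiff_fst)
  · exact contDiff_const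

lemma Gp_add_int (M : Machine) (n : ℕ) (y : ℝ) (k : ℤ) : Gp M n (y + k) = Gp M n y := by
  unfold Gp
  rw [Int.fract_add_intCast]

lemma torus_vel (κ : ℝ) (M : Machine) (t : ℝ) : TorusFun (vel κ M t) := by
  intro x k
  unfold vel
  simp only [Gp_add_int]

lemma torus_frc (κ ν : ℝ) (M : Machine) (t : ℝ) : TorusFun (frc κ ν M t) := by
  intro x k
  unfold frc
  simp only [Gp_add_int]

/-! ### partial derivatives -/

lemma pd_coord {A : ℝ → ℝ} {A' : ℝ} {x : Space} (hA : HasDerivAt A A' (x 1)) (j : Fin 3) :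
    pd j (fun x : Space => A (x 1)) x = if j = 1 then A' else 0 := by
  unfold pd
  have h1 : HasFDerivAt (fun x : Space => A (x 1))
      (A' • (ContinuousLinearMap.proj (R := ℝ) (φ := fun _ : Fin 3 => ℝ) 1)) x :=
    hA.comp_hasFDerivAt x (hasFDerivAt_apply (𝕜 := ℝ) (F' := fun _ : Fin 3 => ℝ) 1 x)
  rw [h1.fderiv]
  simp only [_root_.smul_apply, ContinuousLinearMap.proj_apply, smul_eq_mul]
  by_cases hj : j = 1
  · subst hj
    simp
  · rw [if_neg hj, Pi.single_eq_of_ne (Ne.symm hj), mul_zero]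

lemma pd_const {E : Type} [NormedAddCommGroup E] [NormedSpace ℝ E] (c : E) (j : Fin 3)
    (x : Space) : pd j (fun _ : Space => c) x = 0 := by
  unfold pd
  simp

lemma pd_apply {g : Space → Space} {x : Space} (h : DifferentiableAt ℝ g x) (j i : Fin 3) :
    pd j g x i = pd j (fun y => g y i) x := by
  have h1 : HasFDerivAt (fun y => g y i)
      ((ContinuousLinearMap.proj (R := ℝ) (φ := fun _ : Fin 3 => ℝ) i).comp (fderiv ℝ g x)) x :=
    (hasFDerivAt_apply (𝕜 := ℝ) (F' := fun _ : Fin 3 => ℝ) i (g x)).comp x h.hasFDerivAt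
  unfold pd
  rw [h1.fderiv]
  rfl

lemma dx_zero (j : Fin 3) : dx j (fun _ _ => (0:ℝ)) = fun _ _ => 0 := by
  funext t x
  exact pd_const 0 j x

lemma dt_zero : dt (fun _ _ => (0:ℝ)) = fun _ _ => 0 := by
  funext t x
  simp [dt]

lemma iter_zero {f : (ℝ → Space → ℝ) → (ℝ → Space → ℝ)} (h : f (fun _ _ => 0) = fun _ _ => 0)
    (n : ℕ) : f^[n] (fun _ _ => 0) = fun _ _ => 0 := by
  induction n with
  | zero => rfl
  | succ n ih => rw [Function.iterate_succ_apply, h, ih]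

/-- first component of the force and its derivatives -/
noncomputable def RR (ν : ℝ) (M : Machine) (a b : ℕ) : ℝ → Space → ℝ :=
  fun t x => Q (a + 1) t * Gp M b (x 1) - ν * (Q a t * Gp M (b + 2) (x 1))

lemma dx_RR (ν : ℝ) (M : Machine) (a b : ℕ) (j : Fin 3) :
    dx j (RR ν M a b) = if j = 1 then RR ν M a (b + 1) else fun _ _ => 0 := by
  funext t x
  unfold dx RR
  have h1 : HasDerivAt (fun y => Q (a + 1) t * Gp M b y - ν * (Q a t * Gp M (b + 2) y))
      (Q (a + 1) t * Gp M (b + 1) (x 1) - ν * (Q a t * Gp M (b + 2 + 1) (x 1))) (x 1) :=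
    ((hasDerivAt_Gp M b (x 1)).const_mul _).sub
      (((hasDerivAt_Gp M (b + 2) (x 1)).const_mul _).const_mul _)
  rw [pd_coord h1]
  by_cases hj : j = 1
  · simp only [hj, if_true]
  · simp only [hj, if_false]

lemma dt_RR (ν : ℝ) (M : Machine) (a b : ℕ) : dt (RR ν M a b) = RR ν M (a + 1) b := by
  funext t x
  unfold dt RR
  exact (((hasDerivAt_Q (a + 1) t).mul_const _).sub
    (((hasDerivAt_Q a t).mul_const _).const_mul _)).deriv

lemma iter_dx1_RR (ν : ℝ) (M : Machine) (a b n : ℕ) :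
    (dx 1)^[n] (RR ν M a b) = RR ν M a (b + n) := by
  induction n generalizing b with
  | zero => rfl
  | succ n ih =>
    rw [Function.iterate_succ_apply, dx_RR, if_pos rfl, ih]
    congr 1
    ring

lemma iter_dt_RR (ν : ℝ) (M : Machine) (a b n : ℕ) :
    dt^[n] (RR ν M a b) = RR ν M (a + n) b := by
  induction n generalizing a with
  | zero => rfl
  | succ n ih =>
    rw [Function.iterate_succ_apply, dt_RR, ih]
    congr 1
    ring

lemma iter_dx_RR_ne (ν : ℝ) (M : Machine) (a b n : ℕ) {j : Fin 3} (hj : j ≠ 1) :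
    (dx j)^[n] (RR ν M a b) = if n = 0 then RR ν M a b else fun _ _ => 0 := by
  rcases n with _ | n
  · rfl
  · rw [Function.iterate_succ_apply, dx_RR, if_neg hj, iter_zero (dx_zero j), if_neg (by omega)]

lemma mixed_RR (ν : ℝ) (M : Machine) (a b₀ b₁ b₂ : ℕ) :
    mixedDeriv a b₀ b₁ b₂ (RR ν M 0 0) =
      if b₀ = 0 ∧ b₂ = 0 then RR ν M a b₁ else fun _ _ => 0 := by
  unfold mixedDeriv
  rw [iter_dx_RR_ne ν M 0 0 b₂ (by decide : (2 : Fin 3) ≠ 1)]
  by_cases h2 : b₂ = 0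
  · rw [if_pos h2, iter_dx1_RR, iter_dx_RR_ne ν M 0 _ b₀ (by decide : (0 : Fin 3) ≠ 1)]
    by_cases h0 : b₀ = 0
    · rw [if_pos h0, if_pos ⟨h0, h2⟩, iter_dt_RR]
      simp
    · rw [if_neg h0, if_neg (by tauto), iter_zero dt_zero]
  · rw [if_neg h2, if_neg (by tauto), iter_zero (dx_zero 1), iter_zero (dx_zero 0),
      iter_zero dt_zero]

/-- second component of the force and its derivatives -/
noncomputable def SS (κ : ℝ) (a : ℕ) : ℝ → Space → ℝ := fun t _ => κ * D (a + 1) t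

lemma dx_SS (κ : ℝ) (a : ℕ) (j : Fin 3) : dx j (SS κ a) = fun _ _ => 0 := by
  funext t x
  exact pd_const _ j x

lemma dt_SS (κ : ℝ) (a : ℕ) : dt (SS κ a) = SS κ (a + 1) := by
  funext t x
  unfold dt SS
  exact ((hasDerivAt_D (a + 1) t).const_mul κ).deriv

lemma iter_dt_SS (κ : ℝ) (a n : ℕ) : dt^[n] (SS κ a) = SS κ (a + n) := by
  induction n generalizing a with
  | zero => rfl
  | succ n ih =>
    rw [Function.iterate_succ_apply, dt_SS, ih]
    congr 1
    ring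

lemma iter_dx_SS (κ : ℝ) (a n : ℕ) (j : Fin 3) :
    (dx j)^[n] (SS κ a) = if n = 0 then SS κ a else fun _ _ => 0 := by
  rcases n with _ | n
  · rfl
  · rw [Function.iterate_succ_apply, dx_SS, iter_zero (dx_zero j), if_neg (by omega)]

lemma mixed_SS (κ : ℝ) (a b₀ b₁ b₂ : ℕ) :
    mixedDeriv a b₀ b₁ b₂ (SS κ 0) =
      if b₀ = 0 ∧ b₁ = 0 ∧ b₂ = 0 then SS κ a else fun _ _ => 0 := by
  unfold mixedDeriv
  rw [iter_dx_SS]
  by_cases h2 : b₂ = 0
  · rw [if_pos h2, iter_dx_SS]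
    by_cases h1 : b₁ = 0
    · rw [if_pos h1, iter_dx_SS]
      by_cases h0 : b₀ = 0
      · rw [if_pos h0, if_pos ⟨h0, h1, h2⟩, iter_dt_SS]
        simp
      · rw [if_neg h0, if_neg (by tauto), iter_zero dt_zero]
    · rw [if_neg h1, if_neg (by tauto), iter_zero (dx_zero 0), iter_zero dt_zero]
  · rw [if_neg h2, if_neg (by tauto), iter_zero (dx_zero 1), iter_zero (dx_zero 0),
      iter_zero dt_zero]

lemma mixed_zero (a b₀ b₁ b₂ : ℕ) :
    mixedDeriv a b₀ b₁ b₂ (fun _ _ => 0) = fun _ _ => 0 := by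
  unfold mixedDeriv
  rw [iter_zero (dx_zero 2), iter_zero (dx_zero 1), iter_zero (dx_zero 0), iter_zero dt_zero]

lemma frc_zero (κ ν : ℝ) (M : Machine) : (fun t x => frc κ ν M t x 0) = RR ν M 0 0 := by
  funext t x
  simp [frc, RR]

lemma frc_one (κ ν : ℝ) (M : Machine) : (fun t x => frc κ ν M t x 1) = SS κ 0 := by
  funext t x
  simp [frc, SS]

lemma frc_two (κ ν : ℝ) (M : Machine) : (fun t x => frc κ ν M t x 2) = fun _ _ => 0 := by
  funext t x
  simp [frc]

end Vale.Agent.P113
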