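import Vale.Agent.P113.Profile

open Set Filter Topology
open scoped ContDiff

namespace Vale.Agent.P113

/-- code of the fractional part -/
def frCode (c : RatCode) : RatCode := ((c.1 + c.2.1 * c.2.2) % (c.2.2 + 1), 0, c.2.2)

lemma frCode_val (c : RatCode) : ratVal (frCode c) = Int.fract (ratVal c) := by
  have h1 : ratVal c = ((c.1 + c.2.1 * c.2.2 : ℕ) : ℝ) / ((c.2.2 + 1 : ℕ) : ℝ) - (c.2.1 : ℤ) := by
    unfold ratVal
    have := den_pos c.2.2
    push_cast
    field_simp
    ring
  rw [h1, Int.fract_sub_intCast, Int.fract_div_natCast_eq_div_natCast_mod]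
  unfold ratVal frCode
  push_cast
  ring

/-- the index of the dyadic interval containing `u / (d + 1)` -/
def idx (u d : ℕ) : ℕ := Nat.findGreatest (fun j => 2 ^ j * u ≤ d + 1) (d + 1)

lemma idx_spec {u d : ℕ} (h0 : 0 < u) (h1 : u < d + 1) :
    2 ^ (idx u d) * u ≤ d + 1 ∧ d + 1 < 2 ^ (idx u d + 1) * u := by
  unfold idx
  constructor
  · have : (fun j => 2 ^ j * u ≤ d + 1) (Nat.findGreatest (fun j => 2 ^ j * u ≤ d + 1) (d + 1)) :=
      Nat.findGreatest_spec (P := fun j => 2 ^ j * u ≤ d + 1) (m := 0) (Nat.zero_le _)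
        (by simp; omega)
    exact this
  · set K := Nat.findGreatest (fun j => 2 ^ j * u ≤ d + 1) (d + 1) with hK
    by_cases hle : K + 1 ≤ d + 1
    · have := Nat.findGreatest_is_greatest (P := fun j => 2 ^ j * u ≤ d + 1)
        (n := d + 1) (k := K + 1) (by omega) hle
      omega
    · have h2 : d + 1 < 2 ^ (K + 1) := by
        calc d + 1 < 2 ^ (d + 1) := Nat.lt_two_pow_self
          _ ≤ 2 ^ (K + 1) := Nat.pow_le_pow_right (by norm_num) (by omega)
      nlinarith

variable {α : Type} [Primcodable α]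

lemma prim_mod {f g : α → ℕ} (hf : Primrec f) (hg : Primrec g) : Primrec fun a => f a % g a :=
  Primrec.nat_mod.comp hf hg

lemma prim_frCode {f : α → RatCode} (hf : Primrec f) : Primrec fun a => frCode (f a) := by
  unfold frCode
  exact prim_triple (prim_mod (prim_add (prim_fst' hf) (prim_mul (prim_snd' hf) (prim_thd' hf)))
    (prim_add (prim_thd' hf) (prim_c 1))) (prim_c 0) (prim_thd' hf)

lemma prim_idx {f g : α → ℕ} (hf : Primrec f) (hg : Primrec g) :
    Primrec fun a => idx (f a) (g a) := by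
  unfold idx
  refine Primrec.nat_findGreatest (f := fun a => g a + 1)
    (p := fun a j => 2 ^ j * f a ≤ g a + 1) (prim_add hg (prim_c 1)) ?_
  exact Primrec.nat_le.comp (prim_mul (prim_pow (prim_c 2) Primrec.snd) (hf.comp Primrec.fst))
    (prim_add (hg.comp Primrec.fst) (prim_c 1))

lemma prim_factorial {f : α → ℕ} (hf : Primrec f) : Primrec fun a => (f a).factorial := by
  have h : Primrec fun n : ℕ => n.factorial := by
    have h1 : Primrec fun n : ℕ => (Nat.rec 1 (fun n ih => (n + 1) * ih) n : ℕ) := by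
      refine Primrec.nat_rec' (h := fun _ p => (p.1 + 1) * p.2) Primrec.id (Primrec.const 1) ?_
      exact prim_mul (prim_add (Primrec.fst.comp Primrec.snd) (prim_c 1))
        (Primrec.snd.comp Primrec.snd)
    refine h1.of_eq fun n => ?_
    induction n with
    | zero => rfl
    | succ n ih => simp only [Nat.factorial_succ, ← ih]
  exact h.comp hf

lemma cr_amp {f : α → Machine} {g : α → ℕ} (hf : Primrec f) (hg : Primrec g) :
    CR fun a => amp (f a) (g a) := by
  have h1 : CR fun a => ratVal ((1, 0, (g a).factorial - 1) : RatCode) :=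
    CR.code (prim_triple (prim_c 1) (prim_c 0)
      (prim_sub (prim_factorial hg) (prim_c 1))).to_comp
  refine (CR.mul (cr_tau hf hg) h1).of_eq fun a => ?_
  unfold amp ratVal
  have h2 : 1 ≤ (g a).factorial := Nat.one_le_iff_ne_zero.mpr (Nat.factorial_ne_zero _)
  rw [Nat.cast_sub h2]
  push_cast
  ring

lemma cr_zero : CR fun _ : α => (0:ℝ) := by
  have := CR.code (α := α) (Computable.const (rn 0))
  exact this.of_eq fun a => by rw [ratVal_rn]; simp

/-- the derivatives of the profile are computable, uniformly -/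
lemma cr_G {f : α → Machine} {g : α → ℕ} {c : α → RatCode} (hf : Primrec f) (hg : Primrec g)
    (hc : Primrec c) : CR fun a => G (f a) (g a) (Int.fract (ratVal (c a))) := by
  set e : α → RatCode := fun a => frCode (c a) with he
  have hep : Primrec e := prim_frCode hc
  set k : α → ℕ := fun a => idx (e a).1 (e a).2.2 with hk
  have hkp : Primrec k := prim_idx (prim_fst' hep) (prim_thd' hep)
  have h1 : CR fun a => ratVal (rn (2 ^ ((k a + 1) * g a))) :=
    CR.code (prim_rn (prim_pow (prim_c 2) (prim_mul (prim_add hkp (prim_c 1)) hg))).to_comp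
  have h2 : CR fun a => D (g a) (ratVal
      ((2 ^ (k a + 1) * (e a).1, (e a).2.2 + 1, (e a).2.2) : RatCode)) :=
    cr_D (prim_triple (prim_mul (prim_pow (prim_c 2) (prim_add hkp (prim_c 1))) (prim_fst' hep))
      (prim_add (prim_thd' hep) (prim_c 1)) (prim_thd' hep)) hg
  have h3 := CR.mul (CR.mul (cr_amp hf hkp) h1) h2
  have hb : Primrec fun a => decide ((e a).1 = 0) :=
    (Primrec.eq.comp (prim_fst' hep) (prim_c 0)).decide
  refine (CR.cond hb.to_comp cr_zero h3).of_eq fun a => ?_
  have hval : ratVal (e a) = Int.fract (ratVal (c a)) := frCode_val (c a)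
  have he2 : ratVal (e a) = ((e a).1 : ℝ) / (((e a).2.2 : ℝ) + 1) := by
    have : (e a).2.1 = 0 := rfl
    unfold ratVal
    rw [this]
    simp
  have hlt : (e a).1 < (e a).2.2 + 1 := Nat.mod_lt _ (Nat.succ_pos _)
  have hd := den_pos (e a).2.2
  by_cases h0 : (e a).1 = 0
  · rw [if_pos (by simpa using h0), ← hval, he2, h0]
    rw [G_zero_left]
    simp
  · rw [if_neg (by simpa using h0), ← hval]
    obtain ⟨s1, s2⟩ := idx_spec (Nat.pos_of_ne_zero h0) hlt
    have r1 : (2:ℝ) ^ (k a) * ratVal (e a) ≤ 1 := by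
      rw [he2, ← mul_div_assoc, div_le_one hd]
      exact_mod_cast s1
    have r2 : 1 < (2:ℝ) ^ (k a + 1) * ratVal (e a) := by
      rw [he2, ← mul_div_assoc, one_lt_div hd]
      exact_mod_cast s2
    rw [G_eq_single (f a) (g a) r1 r2, ratVal_rn]
    have r3 : ratVal ((2 ^ (k a + 1) * (e a).1, (e a).2.2 + 1, (e a).2.2) : RatCode)
        = 2 ^ (k a + 1) * ratVal (e a) - 1 := by
      rw [he2]
      unfold ratVal
      push_cast
      field_simp
    rw [r3]
    push_cast
    ring

end Vale.Agent.P113
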