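import Vale.Agent.P113.Solve

open Set Filter Topology MeasureTheory
open scoped ContDiff

namespace Vale.Agent.P113

/-- a rational constant between `1/(2J)` and `1/J` -/
lemma exists_kconst : ∃ c : RatCode, 1 / 2 < ratVal c * J ∧ ratVal c * J < 1 := by
  have hJ := J_pos
  obtain ⟨q, h1, h2⟩ := exists_rat_btwn (show 1 / (2 * J) < 1 / J by
    apply one_div_lt_one_div_of_lt hJ
    linarith)
  have hq : 0 < (q:ℝ) := lt_trans (by positivity) h1
  have hq' : 0 < q := by exact_mod_cast hq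
  have hnum : 0 ≤ q.num := by
    have := Rat.num_pos.mpr hq'
    omega
  refine ⟨(q.num.toNat, 0, q.den - 1), ?_⟩
  have hval : ratVal (q.num.toNat, 0, q.den - 1) = (q:ℝ) := by
    unfold ratVal
    have hd : 1 ≤ q.den := q.den_pos
    rw [Nat.cast_sub hd]
    have e1 : ((q.num.toNat : ℕ) : ℝ) = (q.num : ℝ) := by
      have : ((q.num.toNat : ℕ) : ℤ) = q.num := Int.toNat_of_nonneg hnum
      exact_mod_cast this
    rw [e1]
    have e2 : (q:ℝ) = (q.num : ℝ) / (q.den : ℝ) := by
      exact_mod_cast (Rat.num_div_den q).symm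
    rw [e2]
    push_cast
    ring
  rw [hval]
  constructor
  · rw [div_lt_iff₀ (by positivity)] at h1
    linarith
  · rw [lt_div_iff₀ hJ] at h2
    exact h2

/-- the displacement coefficient, as a code -/
def kcode (c : RatCode) (w : List ℕ) : RatCode :=
  rmul c (1, 0, 2 ^ (Encodable.encode w) - 1)

lemma kcode_val (c : RatCode) (w : List ℕ) :
    ratVal (kcode c w) = ratVal c / 2 ^ (Encodable.encode w) := by
  unfold kcode
  rw [ratVal_rmul]
  have h1 : 1 ≤ 2 ^ (Encodable.encode w) := Nat.one_le_two_pow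
  have h2 : ratVal (1, 0, 2 ^ (Encodable.encode w) - 1) = 1 / 2 ^ (Encodable.encode w) := by
    unfold ratVal
    rw [Nat.cast_sub h1]
    push_cast
    ring
  rw [h2]
  ring

lemma word_encode (w : List ℕ) : word (Encodable.encode w) = w := by
  unfold word
  simp

lemma Gp_value {c : RatCode} (h1 : 1 / 2 < ratVal c * J) (h2 : ratVal c * J < 1) (M : Machine)
    (w : List ℕ) :
    Gp M 0 (ratVal (kcode c w) * J) =
      amp M (Encodable.encode w) * bump (2 * (ratVal c * J) - 1) := by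
  set k := Encodable.encode w with hk
  set y := ratVal (kcode c w) * J with hy
  have hyv : 2 ^ k * y = ratVal c * J := by
    rw [hy, kcode_val, ← hk]
    field_simp
  have hyv' : 2 ^ (k + 1) * y = 2 * (ratVal c * J) := by
    rw [pow_succ, ← hyv]
    ring
  have hpow : (0:ℝ) < 2 ^ k := by positivity
  have hpow1 : (1:ℝ) ≤ 2 ^ k := one_le_pow₀ (by norm_num)
  have hy0 : 0 < y := by
    by_contra hcon
    rw [not_lt] at hcon
    have : 2 ^ k * y ≤ 0 := mul_nonpos_of_nonneg_of_nonpos hpow.le hcon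
    rw [hyv] at this
    linarith
  have hy1 : y < 1 := by
    by_contra hcon
    rw [not_lt] at hcon
    have : 1 ≤ 2 ^ k * y := by nlinarith
    rw [hyv] at this
    linarith
  unfold Gp
  rw [Int.fract_eq_self.mpr ⟨hy0.le, hy1⟩, G_eq_single M 0 (k := k) (by rw [hyv]; exact h2.le)
    (by rw [hyv']; linarith), hyv', D_zero, mul_zero, pow_zero, mul_one]

lemma Gp_nonneg {c : RatCode} (h1 : 1 / 2 < ratVal c * J) (h2 : ratVal c * J < 1) (M : Machine)
    (w : List ℕ) : 0 ≤ Gp M 0 (ratVal (kcode c w) * J) := by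
  rw [Gp_value h1 h2]
  exact mul_nonneg (amp_nonneg _ _) (bump_nonneg _)

lemma Gp_pos_iff {c : RatCode} (h1 : 1 / 2 < ratVal c * J) (h2 : ratVal c * J < 1) (M : Machine)
    (w : List ℕ) : 0 < Gp M 0 (ratVal (kcode c w) * J) ↔ Halts M w := by
  have hb : 0 < bump (2 * (ratVal c * J) - 1) := bump_pos (by linarith) (by linarith)
  rw [Gp_value h1 h2, mul_pos_iff_of_pos_right hb, amp_pos_iff, word_encode]

/-! ### the compiler -/

abbrev Inp : Type :=
  Fin 3 × (ℕ × ℕ × ℕ × ℕ) × (RatCode × RatCode × RatCode × RatCode) × ℕ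

abbrev Inp' : Type :=
  (Machine × List ℕ) × Fin 3 × (ℕ × ℕ × ℕ × ℕ) × (RatCode × RatCode × RatCode × RatCode)

/-- the value that the program has to approximate -/
noncomputable def value (c : RatCode) (ν : ℝ) (z : Inp') : ℝ :=
  mixedDeriv z.2.2.1.1 z.2.2.1.2.1 z.2.2.1.2.2.1 z.2.2.1.2.2.2
    (fun t x => frc (ratVal (kcode c z.1.2)) ν z.1.1 t x z.2.1) (ratVal z.2.2.2.1)
    ![ratVal z.2.2.2.2.1, ratVal z.2.2.2.2.2.1, ratVal z.2.2.2.2.2.2]

section

variable {α : Type} [Primcodable α]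

lemma cr_Q {f : α → RatCode} {g : α → ℕ} (hf : Primrec f) (hg : Primrec g) :
    CR fun a => Q (g a) (ratVal (f a)) := by
  refine (CR.sub (cr_D (prim_frCode hf) hg) (cr_D hf hg)).of_eq fun a => ?_
  rw [frCode_val]
  rfl

lemma prim_kcode {c : RatCode} {f : α → List ℕ} (hf : Primrec f) :
    Primrec fun a => kcode c (f a) := by
  unfold kcode
  exact prim_rmul (Primrec.const c) (prim_triple (prim_c 1) (prim_c 0)
    (prim_sub (prim_pow (prim_c 2) (Primrec.encode.comp hf)) (prim_c 1)))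

end

lemma cr_value (c : RatCode) {ν : ℝ} (hν : ComputableReal ν) : CR (value c ν) := by
  have hM : Primrec fun z : Inp' => z.1.1 := Primrec.fst.comp Primrec.fst
  have hw : Primrec fun z : Inp' => z.1.2 := Primrec.snd.comp Primrec.fst
  have hi : Primrec fun z : Inp' => z.2.1 := Primrec.fst.comp Primrec.snd
  have hm : Primrec fun z : Inp' => z.2.2.1 := Primrec.fst.comp (Primrec.snd.comp Primrec.snd)
  have hp : Primrec fun z : Inp' => z.2.2.2 := Primrec.snd.comp (Primrec.snd.comp Primrec.snd)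
  have ha : Primrec fun z : Inp' => z.2.2.1.1 := Primrec.fst.comp hm
  have hb0 : Primrec fun z : Inp' => z.2.2.1.2.1 := Primrec.fst.comp (Primrec.snd.comp hm)
  have hb1 : Primrec fun z : Inp' => z.2.2.1.2.2.1 :=
    Primrec.fst.comp (Primrec.snd.comp (Primrec.snd.comp hm))
  have hb2 : Primrec fun z : Inp' => z.2.2.1.2.2.2 :=
    Primrec.snd.comp (Primrec.snd.comp (Primrec.snd.comp hm))
  have ht : Primrec fun z : Inp' => z.2.2.2.1 := Primrec.fst.comp hp
  have hx1 : Primrec fun z : Inp' => z.2.2.2.2.2.1 :=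
    Primrec.fst.comp (Primrec.snd.comp (Primrec.snd.comp hp))
  have ha1 := prim_add ha (prim_c 1)
  have hb12 := prim_add hb1 (prim_c 2)
  have h0 : CR fun z : Inp' => Q (z.2.2.1.1 + 1) (ratVal z.2.2.2.1) *
      G z.1.1 z.2.2.1.2.2.1 (Int.fract (ratVal z.2.2.2.2.2.1)) -
      ν * (Q z.2.2.1.1 (ratVal z.2.2.2.1) *
      G z.1.1 (z.2.2.1.2.2.1 + 2) (Int.fract (ratVal z.2.2.2.2.2.1))) :=
    CR.sub (CR.mul (cr_Q ht ha1) (cr_G hM hb1 hx1))
      (CR.mul (CR.real hν) (CR.mul (cr_Q ht ha) (cr_G hM hb12 hx1)))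
  have h1 : CR fun z : Inp' => ratVal (kcode c z.1.2) * D (z.2.2.1.1 + 1) (ratVal z.2.2.2.1) :=
    CR.mul (CR.code (prim_kcode hw).to_comp) (cr_D ht ha1)
  have c0 : Primrec fun z : Inp' => (decide (z.2.1 = 0) &&
      (decide (z.2.2.1.2.1 = 0) && decide (z.2.2.1.2.2.2 = 0))) :=
    Primrec.and.comp (Primrec.eq.comp hi (Primrec.const 0)).decide
      (Primrec.and.comp (Primrec.eq.comp hb0 (prim_c 0)).decide
        (Primrec.eq.comp hb2 (prim_c 0)).decide)
  have c1 : Primrec fun z : Inp' => (decide (z.2.1 = 1) &&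
      (decide (z.2.2.1.2.1 = 0) && (decide (z.2.2.1.2.2.1 = 0) &&
        decide (z.2.2.1.2.2.2 = 0)))) :=
    Primrec.and.comp (Primrec.eq.comp hi (Primrec.const 1)).decide
      (Primrec.and.comp (Primrec.eq.comp hb0 (prim_c 0)).decide
        (Primrec.and.comp (Primrec.eq.comp hb1 (prim_c 0)).decide
          (Primrec.eq.comp hb2 (prim_c 0)).decide))
  refine (CR.cond c0.to_comp h0 (CR.cond c1.to_comp h1 cr_zero)).of_eq fun z => ?_
  obtain ⟨⟨M, w⟩, i, ⟨a, b₀, b₁, b₂⟩, t, x₀, x₁, x₂⟩ := z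
  simp only [value, Bool.and_eq_true, decide_eq_true_eq]
  fin_cases i
  · simp only [Fin.zero_eta, frc_zero, mixed_RR, true_and]
    by_cases h : b₀ = 0 ∧ b₂ = 0
    · rw [if_pos h, if_pos h]
      simp [RR, Gp]
    · rw [if_neg h, if_neg h]
      simp
  · simp only [Fin.mk_one, frc_one, mixed_SS, Fin.isValue, one_ne_zero, false_and, if_false,
      true_and]
    by_cases h : b₀ = 0 ∧ b₁ = 0 ∧ b₂ = 0
    · rw [if_pos h, if_pos h]
      simp [SS]
    · rw [if_neg h, if_neg h]
  · simp only [Fin.reduceFinMk, frc_two, mixed_zero]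
    simp

/-- existence of the compiler -/
lemma exists_compiler (c : RatCode) {ν : ℝ} (hν : ComputableReal ν) :
    ∃ compile : Machine × List ℕ → Nat.Partrec.Code, Computable compile ∧
      ∀ M w, IsProgramFor (compile (M, w)) (frc (ratVal (kcode c w)) ν M) := by
  obtain ⟨A, hA, hA2⟩ := cr_value c hν
  let F : (Machine × List ℕ) × Inp → RatCode := fun p =>
    A (p.1, p.2.1, p.2.2.1, p.2.2.2.1) p.2.2.2.2
  have hF : Computable F := by
    refine hA.comp ?_ ?_
    · refine Computable.pair Computable.fst (Computable.pair (Computable.fst.comp Computable.snd)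
        (Computable.pair ?_ ?_))
      · exact Computable.fst.comp (Computable.snd.comp Computable.snd)
      · exact Computable.fst.comp (Computable.snd.comp (Computable.snd.comp Computable.snd))
    · exact Computable.snd.comp (Computable.snd.comp (Computable.snd.comp Computable.snd))
  obtain ⟨e, he⟩ := Nat.Partrec.Code.exists_code.mp hF
  refine ⟨fun p => Nat.Partrec.Code.curry e (Encodable.encode p), ?_, ?_⟩
  · exact (Nat.Partrec.Code.primrec₂_curry.comp (Primrec.const e) Primrec.encode).to_comp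
  · intro M w i a b₀ b₁ b₂ t x₀ x₁ x₂ n _
    refine ⟨F ((M, w), i, (a, b₀, b₁, b₂), (t, x₀, x₁, x₂), n), ?_, ?_⟩
    · rw [Nat.Partrec.Code.eval_curry, he]
      have : Nat.pair (Encodable.encode (M, w))
          (Encodable.encode (i, (a, b₀, b₁, b₂), (t, x₀, x₁, x₂), n)) =
          Encodable.encode (((M, w), i, (a, b₀, b₁, b₂), (t, x₀, x₁, x₂), n) :
            (Machine × List ℕ) × Inp) := rfl
      rw [this]
      simp only [Encodable.encodek, Part.coe_some, Part.bind_some]
      exact Part.mem_map _ (Part.mem_some _)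
    · exact hA2 ((M, w), i, (a, b₀, b₁, b₂), t, x₀, x₁, x₂) n

end Vale.Agent.P113
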