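import Vale.Agent.P113.Sim
import Vale.Agent.P113.DComp

open Set Filter Topology
open scoped ContDiff

namespace Vale.Agent.P113

lemma contDiff_of_chain {G : ℕ → ℝ → ℝ} (h : ∀ n x, HasDerivAt (G n) (G (n + 1) x) x) (n : ℕ) :
    ContDiff ℝ ∞ (G n) := by
  rw [contDiff_infty]
  intro m
  induction m generalizing n with
  | zero =>
    have : Continuous (G n) := continuous_iff_continuousAt.mpr fun x => (h n x).continuousAt
    simpa using (contDiff_zero (𝕜 := ℝ)).mpr this
  | succ m ih =>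
    have hd : deriv (G n) = G (n + 1) := funext fun x => (h n x).deriv
    rw [Nat.cast_succ, contDiff_succ_iff_deriv]
    refine ⟨fun x => (h n x).differentiableAt, by simp, ?_⟩
    rw [hd]
    exact ih (n + 1)

lemma periodize {G : ℕ → ℝ → ℝ} (h : ∀ n x, HasDerivAt (G n) (G (n + 1) x) x)
    (h0 : ∀ n x, x ≤ 0 → G n x = 0) (h1 : ∀ n x, 1 ≤ x → G n x = 0) (n : ℕ) (y : ℝ) :
    HasDerivAt (fun y => G n (Int.fract y)) (G (n + 1) (Int.fract y)) y := by
  set m : ℤ := ⌊y⌋ with hm
  have key : ∀ n, ∀ z ∈ Ioo ((m:ℝ) - 1) ((m:ℝ) + 1),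
      G n (Int.fract z) = G n (z - m) + G n (z - m + 1) := by
    intro n z hz
    rcases le_or_gt (m:ℝ) z with hmz | hmz
    · have : ⌊z⌋ = m := Int.floor_eq_iff.mpr ⟨hmz, hz.2⟩
      rw [Int.fract, this, h1 n (z - m + 1) (by linarith), add_zero]
    · have : ⌊z⌋ = m - 1 := Int.floor_eq_iff.mpr ⟨by push_cast; linarith [hz.1],
        by push_cast; linarith⟩
      rw [Int.fract, this, h0 n (z - m) (by linarith), zero_add]
      congr 1
      push_cast
      ring
  have hy : y ∈ Ioo ((m:ℝ) - 1) ((m:ℝ) + 1) := by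
    have e1 := Int.floor_le y
    have e2 := Int.lt_floor_add_one y
    rw [← hm] at e1 e2
    exact ⟨by linarith, e2⟩
  have hd : HasDerivAt (fun z => G n (z - m) + G n (z - m + 1))
      (G (n + 1) (y - m) + G (n + 1) (y - m + 1)) y := by
    have a1 : HasDerivAt (fun z : ℝ => z - m) 1 y := by
      simpa using (hasDerivAt_id y).sub_const (m:ℝ)
    have a2 : HasDerivAt (fun z : ℝ => z - m + 1) 1 y := by
      simpa using a1.add_const (1:ℝ)
    have b1 := (h n (y - m)).comp y a1
    have b2 := (h n (y - m + 1)).comp y a2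
    exact (b1.add b2).congr_deriv (by ring)
  rw [key (n + 1) y hy]
  refine hd.congr_of_eventuallyEq ?_
  filter_upwards [Ioo_mem_nhds hy.1 hy.2] with z hz
  exact key n z hz

/-- the `k`-th word -/
def word (k : ℕ) : List ℕ := Denumerable.ofNat (List ℕ) k

noncomputable def tau (M : Machine) (k : ℕ) : ℝ :=
  ∑' n : ℕ, if haltAt M (word k) n = true then (1 / 2 : ℝ) ^ (n + 1) else 0

lemma summable_half : Summable fun n : ℕ => (1 / 2 : ℝ) ^ (n + 1) := by
  have := summable_geometric_two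
  exact (summable_nat_add_iff 1).mpr this

lemma summable_tau (M : Machine) (k : ℕ) :
    Summable fun n : ℕ => if haltAt M (word k) n = true then (1 / 2 : ℝ) ^ (n + 1) else 0 := by
  refine Summable.of_nonneg_of_le (fun n => ?_) (fun n => ?_) summable_half
  · split_ifs <;> positivity
  · split_ifs
    · exact le_rfl
    · positivity

lemma tsum_half_tail (N : ℕ) : ∑' n : ℕ, (1 / 2 : ℝ) ^ (n + N + 1) = (1 / 2) ^ N := by
  have h : ∀ n : ℕ, (1 / 2 : ℝ) ^ (n + N + 1) = (1 / 2) ^ (N + 1) * (1 / 2) ^ n := by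
    intro n
    rw [← pow_add]
    congr 1
    omega
  simp_rw [h]
  rw [tsum_mul_left, tsum_geometric_two]
  ring

lemma tau_nonneg (M : Machine) (k : ℕ) : 0 ≤ tau M k :=
  tsum_nonneg fun n => by split_ifs <;> positivity

lemma tau_le_one (M : Machine) (k : ℕ) : tau M k ≤ 1 := by
  have h1 : tau M k ≤ ∑' n : ℕ, (1 / 2 : ℝ) ^ (n + 1) := by
    refine (summable_tau M k).tsum_le_tsum (fun n => ?_) summable_half
    split_ifs
    · exact le_rfl
    · positivity
  have h2 := tsum_half_tail 0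
  simp only [add_zero, pow_zero] at h2
  rwa [h2] at h1

lemma tau_pos_iff (M : Machine) (k : ℕ) : 0 < tau M k ↔ Halts M (word k) := by
  rw [halts_iff]
  constructor
  · intro h
    by_contra hcon
    push Not at hcon
    have : tau M k = 0 := by
      unfold tau
      simp [hcon]
    linarith
  · rintro ⟨n, hn⟩
    refine (summable_tau M k).tsum_pos (fun n => by split_ifs <;> positivity) n ?_
    rw [if_pos hn]
    positivity

/-- numerator of the partial sum -/
def num (M : Machine) (w : List ℕ) (N : ℕ) : ℕ :=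
  Nat.rec 0 (fun n acc => 2 * acc + (bif haltAt M w n then 1 else 0)) N

lemma num_spec (M : Machine) (k : ℕ) (N : ℕ) :
    ∑ n ∈ Finset.range N, (if haltAt M (word k) n = true then (1 / 2 : ℝ) ^ (n + 1) else 0)
      = (num M (word k) N : ℝ) / 2 ^ N := by
  induction N with
  | zero => simp [num]
  | succ N ih =>
    rw [Finset.sum_range_succ, ih]
    have : num M (word k) (N + 1) = 2 * num M (word k) N +
      (bif haltAt M (word k) N then 1 else 0) := rfl
    rw [this]
    cases haltAt M (word k) N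
    · simp
      field_simp
      ring
    · simp
      field_simp
      ring

lemma num_error (M : Machine) (k : ℕ) (N : ℕ) :
    |(num M (word k) N : ℝ) / 2 ^ N - tau M k| ≤ 1 / ((N:ℝ) + 1) := by
  have h1 := (summable_tau M k).sum_add_tsum_nat_add N
  rw [num_spec] at h1
  have h2 : 0 ≤ ∑' i : ℕ, (if haltAt M (word k) (i + N) = true then (1 / 2 : ℝ) ^ (i + N + 1)
      else 0) := tsum_nonneg fun n => by split_ifs <;> positivity
  have h3 : ∑' i : ℕ, (if haltAt M (word k) (i + N) = true then (1 / 2 : ℝ) ^ (i + N + 1)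
      else 0) ≤ (1 / 2) ^ N := by
    rw [← tsum_half_tail N]
    refine Summable.tsum_le_tsum (fun n => ?_) ?_ ?_
    · split_ifs
      · exact le_rfl
      · positivity
    · exact (summable_nat_add_iff (f := fun n : ℕ =>
        if haltAt M (word k) n = true then (1 / 2 : ℝ) ^ (n + 1) else 0) N).mpr (summable_tau M k)
    · exact (summable_nat_add_iff (f := fun n : ℕ => (1 / 2 : ℝ) ^ (n + 1)) N).mpr summable_half
  have h4 : (1 / 2 : ℝ) ^ N ≤ 1 / ((N:ℝ) + 1) := by
    rw [one_div, inv_pow, one_div]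
    apply inv_anti₀ (den_pos N)
    have : N + 1 ≤ 2 ^ N := Nat.lt_two_pow_self
    exact_mod_cast this
  have h5 : tau M k = (num M (word k) N : ℝ) / 2 ^ N +
    ∑' i : ℕ, (if haltAt M (word k) (i + N) = true then (1 / 2 : ℝ) ^ (i + N + 1) else 0) := h1.symm
  rw [h5, abs_le]
  constructor <;> linarith

variable {α : Type} [Primcodable α]

lemma prim_num {f : α → Machine} {g : α → List ℕ} {h : α → ℕ} (hf : Primrec f)
    (hg : Primrec g) (hh : Primrec h) : Primrec fun a => num (f a) (g a) (h a) := by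
  unfold num
  refine Primrec.nat_rec' (h := fun a p => 2 * p.2 + (bif haltAt (f a) (g a) p.1 then 1 else 0))
    hh (Primrec.const 0) ?_
  refine prim_add (prim_mul (prim_c 2) (Primrec.snd.comp Primrec.snd)) ?_
  exact Primrec.cond (prim_haltAt (hf.comp Primrec.fst) (hg.comp Primrec.fst)
    (Primrec.fst.comp Primrec.snd)) (prim_c 1) (prim_c 0)

lemma prim_word {f : α → ℕ} (hf : Primrec f) : Primrec fun a => word (f a) :=
  (Primrec.ofNat (List ℕ)).comp hf

lemma cr_tau {f : α → Machine} {g : α → ℕ} (hf : Primrec f) (hg : Primrec g) :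
    CR fun a => tau (f a) (g a) := by
  refine ⟨fun a n => (num (f a) (word (g a)) n, 0, 2 ^ n - 1), ?_, fun a n => ?_⟩
  · apply Primrec.to_comp
    exact prim_triple (prim_num (hf.comp Primrec.fst) (prim_word (hg.comp Primrec.fst))
      Primrec.snd) (prim_c 0) (prim_sub (prim_pow (prim_c 2) Primrec.snd) (prim_c 1))
  · have h := num_error (f a) (g a) n
    convert h using 3
    unfold ratVal
    have h1 : 1 ≤ 2 ^ n := Nat.one_le_two_pow
    rw [Nat.cast_sub h1]
    push_cast
    rw [sub_zero, sub_add_cancel]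

/-- amplitudes -/
noncomputable def amp (M : Machine) (k : ℕ) : ℝ := tau M k / (k.factorial : ℝ)

lemma amp_nonneg (M : Machine) (k : ℕ) : 0 ≤ amp M k :=
  div_nonneg (tau_nonneg M k) (by positivity)

lemma amp_le (M : Machine) (k : ℕ) : amp M k ≤ 1 / (k.factorial : ℝ) := by
  unfold amp
  gcongr
  exact tau_le_one M k

lemma amp_pos_iff (M : Machine) (k : ℕ) : 0 < amp M k ↔ Halts M (word k) := by
  unfold amp
  rw [div_pos_iff_of_pos_right (by positivity), tau_pos_iff]

/-- the profile and its derivatives -/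
noncomputable def G (M : Machine) (n : ℕ) (y : ℝ) : ℝ :=
  ∑' k : ℕ, amp M k * 2 ^ ((k + 1) * n) * D n (2 ^ (k + 1) * y - 1)

lemma G_term_bound (M : Machine) (n : ℕ) : ∃ v : ℕ → ℝ, Summable v ∧
    ∀ k (y : ℝ), ‖amp M k * 2 ^ ((k + 1) * n) * D n (2 ^ (k + 1) * y - 1)‖ ≤ v k := by
  obtain ⟨C, hC0, hC⟩ := D_bounded n
  refine ⟨fun k => C * 2 ^ n * ((2 ^ n) ^ k / (k.factorial : ℝ)), ?_, fun k y => ?_⟩
  · exact (Real.summable_pow_div_factorial (2 ^ n)).mul_left _
  · rw [norm_mul, norm_mul, Real.norm_eq_abs, Real.norm_eq_abs, Real.norm_eq_abs,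
      abs_of_nonneg (amp_nonneg M k), abs_of_nonneg (by positivity)]
    calc amp M k * 2 ^ ((k + 1) * n) * |D n (2 ^ (k + 1) * y - 1)|
        ≤ 1 / (k.factorial : ℝ) * 2 ^ ((k + 1) * n) * C := by
          gcongr
          · exact amp_le M k
          · exact hC _
      _ = C * 2 ^ n * ((2 ^ n) ^ k / (k.factorial : ℝ)) := by
          rw [add_mul, one_mul, pow_add, mul_comm k n, pow_mul]
          ring

lemma hasDerivAt_G (M : Machine) (n : ℕ) (y : ℝ) : HasDerivAt (G M n) (G M (n + 1) y) y := by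
  obtain ⟨v, hv, hb⟩ := G_term_bound M (n + 1)
  obtain ⟨v', hv', hb'⟩ := G_term_bound M n
  unfold G
  refine hasDerivAt_tsum hv (fun k z => ?_) (fun k z => hb k z)
    (y₀ := 0) (Summable.of_norm_bounded hv' fun k => hb' k 0) y
  have h1 : HasDerivAt (fun z : ℝ => 2 ^ (k + 1) * z - 1) (2 ^ (k + 1)) z := by
    simpa using ((hasDerivAt_id z).const_mul ((2:ℝ) ^ (k + 1))).sub_const (1:ℝ)
  have h2 := (hasDerivAt_D n (2 ^ (k + 1) * z - 1)).comp z h1
  have h3 := h2.const_mul (amp M k * 2 ^ ((k + 1) * n))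
  refine h3.congr_deriv ?_
  rw [mul_add, mul_one, pow_add]
  ring

lemma G_eq_single (M : Machine) (n : ℕ) {y : ℝ} {k : ℕ} (h1 : 2 ^ k * y ≤ 1)
    (h2 : 1 < 2 ^ (k + 1) * y) :
    G M n y = amp M k * 2 ^ ((k + 1) * n) * D n (2 ^ (k + 1) * y - 1) := by
  have hy : 0 < y := by
    by_contra hcon
    rw [not_lt] at hcon
    have : 2 ^ (k + 1) * y ≤ 0 := mul_nonpos_of_nonneg_of_nonpos (by positivity) hcon
    linarith
  unfold G
  refine tsum_eq_single k fun j hj => ?_
  rcases lt_or_gt_of_ne hj with hlt | hgt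
  · rw [D_zero_left, mul_zero]
    have : (2:ℝ) ^ (j + 1) ≤ 2 ^ k := pow_le_pow_right₀ (by norm_num) (by omega)
    nlinarith
  · rw [D_zero_right, mul_zero]
    have h3 : (2:ℝ) ^ (k + 1 + 1) ≤ 2 ^ (j + 1) := pow_le_pow_right₀ (by norm_num) (by omega)
    have h4 : (2:ℝ) ^ (k + 1 + 1) = 2 * 2 ^ (k + 1) := by ring
    nlinarith

lemma G_zero_left (M : Machine) (n : ℕ) (y : ℝ) (hy : y ≤ 0) : G M n y = 0 := by
  unfold G
  have : ∀ k : ℕ, amp M k * 2 ^ ((k + 1) * n) * D n (2 ^ (k + 1) * y - 1) = 0 := by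
    intro k
    rw [D_zero_left, mul_zero]
    have : (2:ℝ) ^ (k + 1) * y ≤ 0 := mul_nonpos_of_nonneg_of_nonpos (by positivity) hy
    linarith
  simp [this]

lemma G_zero_right (M : Machine) (n : ℕ) (y : ℝ) (hy : 1 ≤ y) : G M n y = 0 := by
  unfold G
  have : ∀ k : ℕ, amp M k * 2 ^ ((k + 1) * n) * D n (2 ^ (k + 1) * y - 1) = 0 := by
    intro k
    rw [D_zero_right, mul_zero]
    have h1 : (2:ℝ) ≤ 2 ^ (k + 1) := by
      calc (2:ℝ) = 2 ^ 1 := by norm_num
        _ ≤ 2 ^ (k + 1) := pow_le_pow_right₀ (by norm_num) (by omega)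
    nlinarith
  simp [this]

end Vale.Agent.P113
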