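import Vale.Agent.P113.Comp

open Set Filter Topology

namespace Vale.Agent.P113

/-- configurations as a state and two stacks -/
abbrev Cfg : Type := ℕ × List ℕ × List ℕ

def simRule (c : Cfg) (r : ℕ × ℕ × ℕ) : Cfg :=
  if r.2.2 = 0 then (r.1, c.2.1.tail, c.2.1.headI :: r.2.1 :: c.2.2.tail)
  else if r.2.2 = 1 then (r.1, r.2.1 :: c.2.1, c.2.2.tail)
  else (r.1, c.2.1, r.2.1 :: c.2.2.tail)

def simStep (M : Machine) (c : Cfg) : Cfg :=
  ((M.2.2.lookup (c.1, c.2.2.headI)).map (simRule c)).getD c

def simInit (M : Machine) (w : List ℕ) : Cfg := (M.1, [], w)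

def Rel (c : Config) (s : Cfg) : Prop :=
  c.state = s.1 ∧ (∀ k : ℕ, c.tape (c.head + k) = s.2.2.getD k 0) ∧
    (∀ k : ℕ, c.tape (c.head - 1 - k) = s.2.1.getD k 0)

lemma rel_init (M : Machine) (w : List ℕ) : Rel (initConfig M w) (simInit M w) := by
  refine ⟨rfl, fun k => ?_, fun k => ?_⟩
  · simp [initConfig, simInit]
  · have : ¬ (0:ℤ) ≤ 0 - 1 - (k:ℤ) := by omega
    simp only [initConfig, simInit, this, if_false]
    simp

lemma getD_zero_headI (l : List ℕ) : l.getD 0 0 = l.headI := by
  cases l <;> rfl

lemma getD_succ_tail (l : List ℕ) (k : ℕ) : l.getD (k + 1) 0 = l.tail.getD k 0 := by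
  cases l <;> simp

lemma rel_step {M : Machine} {c : Config} {s : Cfg} (h : Rel c s) :
    Rel (step M c) (simStep M s) := by
  obtain ⟨h1, h2, h3⟩ := h
  have hhead : c.tape c.head = s.2.2.headI := by
    have := h2 0
    rw [getD_zero_headI] at this
    simpa using this
  unfold step simStep
  rw [h1, hhead]
  rcases hl : M.2.2.lookup (s.1, s.2.2.headI) with _ | ⟨q, a, d⟩
  · simp only [Option.map_none, Option.getD_none]
    exact ⟨h1, h2, h3⟩
  · simp only [Option.map_some, Option.getD_some]
    unfold simRule
    have hR : ∀ k : ℕ, c.tape (c.head + 1 + k) = s.2.2.tail.getD k 0 := by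
      intro k
      rw [← getD_succ_tail, ← h2 (k + 1)]
      congr 1
      push_cast
      ring
    have hL : ∀ k : ℕ, c.tape (c.head - 1 - 1 - k) = s.2.1.tail.getD k 0 := by
      intro k
      rw [← getD_succ_tail, ← h3 (k + 1)]
      congr 1
      push_cast
      ring
    have hL0 : c.tape (c.head - 1) = s.2.1.headI := by
      have := h3 0
      rw [getD_zero_headI] at this
      simpa using this
    by_cases hd0 : d = 0
    · simp only [hd0, if_true]
      refine ⟨rfl, fun k => ?_, fun k => ?_⟩
      · dsimp only
        rcases k with _ | _ | k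
        · rw [Function.update_of_ne (by simp)]
          simpa using hL0
        · have : c.head - 1 + ((0 + 1 : ℕ) : ℤ) = c.head := by push_cast; ring
          rw [this, Function.update_self]
          simp
        · rw [Function.update_of_ne (by push_cast; omega)]
          have : c.head - 1 + ((k + 1 + 1 : ℕ) : ℤ) = c.head + 1 + k := by
            push_cast
            ring
          rw [this, hR k]
          simp
      · dsimp only
        rw [Function.update_of_ne (by omega)]
        exact hL k
    · by_cases hd1 : d = 1
      · simp only [hd1, if_true, one_ne_zero, if_false]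
        refine ⟨rfl, fun k => ?_, fun k => ?_⟩
        · dsimp only
          rw [Function.update_of_ne (by omega)]
          exact hR k
        · dsimp only
          rcases k with _ | k
          · simp
          · rw [Function.update_of_ne (by push_cast; omega)]
            have : c.head + 1 - 1 - ((k + 1 : ℕ) : ℤ) = c.head - 1 - k := by
              push_cast
              ring
            rw [this, h3 k]
            simp
      · simp only [hd0, hd1, if_false]
        refine ⟨rfl, fun k => ?_, fun k => ?_⟩
        · dsimp only
          rcases k with _ | k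
          · simp
          · rw [Function.update_of_ne (by push_cast; omega)]
            have : c.head + ((k + 1 : ℕ) : ℤ) = c.head + 1 + k := by
              push_cast
              ring
            rw [this, hR k]
            simp
        · dsimp only
          rw [Function.update_of_ne (by omega)]
          exact h3 k

lemma rel_iterate (M : Machine) (w : List ℕ) (n : ℕ) :
    Rel ((step M)^[n] (initConfig M w)) ((simStep M)^[n] (simInit M w)) := by
  induction n with
  | zero => exact rel_init M w
  | succ n ih =>
    rw [Function.iterate_succ_apply', Function.iterate_succ_apply']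
    exact rel_step ih

/-- the machine is in a halting state after `n` steps -/
def haltAt (M : Machine) (w : List ℕ) (n : ℕ) : Bool :=
  (M.2.1.map fun q => decide (q = ((simStep M)^[n] (simInit M w)).1)).foldl (fun a b => a || b) false

lemma foldl_or (l : List Bool) (a : Bool) :
    (l.foldl (fun a b => a || b) a = true) ↔ a = true ∨ ∃ b ∈ l, b = true := by
  induction l generalizing a with
  | nil => simp
  | cons x l ih =>
    rw [List.foldl_cons, ih]
    simp only [Bool.or_eq_true, List.mem_cons, exists_eq_or_imp]
    tauto

lemma halts_iff (M : Machine) (w : List ℕ) : Halts M w ↔ ∃ n, haltAt M w n = true := by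
  unfold Halts haltAt
  refine exists_congr fun n => ?_
  rw [foldl_or, (rel_iterate M w n).1]
  simp

variable {α : Type} [Primcodable α]

lemma lookup_inst (l : List ((ℕ × ℕ) × ℕ × ℕ × ℕ)) (k : ℕ × ℕ) :
    @List.lookup _ _ instBEqOfDecidableEq k l = @List.lookup _ _ instBEqProd k l := by
  induction l with
  | nil => rfl
  | cons r l ih =>
    have h : (@BEq.beq (ℕ × ℕ) instBEqOfDecidableEq k r.1) = (@BEq.beq _ instBEqProd k r.1) := by
      rw [Bool.eq_iff_iff]
      constructor
      · intro h1
        have h2 : k = r.1 := of_decide_eq_true h1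
        rw [h2]
        exact beq_self_eq_true _
      · intro h1
        have h2 : k = r.1 := eq_of_beq h1
        exact decide_eq_true h2
    obtain ⟨r1, r2⟩ := r
    simp only [List.lookup]
    simp only at h
    rw [h, ih]

lemma prim_simStep : Primrec₂ simStep := by
  have hM : Primrec fun p : Machine × Cfg => p.1 := Primrec.fst
  have hc : Primrec fun p : Machine × Cfg => p.2 := Primrec.snd
  have hkey : Primrec fun p : Machine × Cfg => (p.2.1, p.2.2.2.headI) :=
    Primrec.pair (Primrec.fst.comp hc)
      (Primrec.list_headI.comp (Primrec.snd.comp (Primrec.snd.comp hc)))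
  have hl : Primrec fun p : Machine × Cfg => p.1.2.2.lookup (p.2.1, p.2.2.2.headI) :=
    (Primrec.listLookup.comp hkey (Primrec.snd.comp (Primrec.snd.comp hM))).of_eq
      fun p => lookup_inst _ _
  have hrule : Primrec₂ fun (p : Machine × Cfg) (r : ℕ × ℕ × ℕ) => simRule p.2 r := by
    have gq : Primrec fun z : (Machine × Cfg) × (ℕ × ℕ × ℕ) => z.2.1 :=
      Primrec.fst.comp Primrec.snd
    have ga : Primrec fun z : (Machine × Cfg) × (ℕ × ℕ × ℕ) => z.2.2.1 :=
      Primrec.fst.comp (Primrec.snd.comp Primrec.snd)
    have gd : Primrec fun z : (Machine × Cfg) × (ℕ × ℕ × ℕ) => z.2.2.2 :=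
      Primrec.snd.comp (Primrec.snd.comp Primrec.snd)
    have gL : Primrec fun z : (Machine × Cfg) × (ℕ × ℕ × ℕ) => z.1.2.2.1 :=
      Primrec.fst.comp (Primrec.snd.comp (Primrec.snd.comp Primrec.fst))
    have gR : Primrec fun z : (Machine × Cfg) × (ℕ × ℕ × ℕ) => z.1.2.2.2 :=
      Primrec.snd.comp (Primrec.snd.comp (Primrec.snd.comp Primrec.fst))
    unfold simRule
    refine Primrec.ite (Primrec.eq.comp gd (Primrec.const 0)) ?_
      (Primrec.ite (Primrec.eq.comp gd (Primrec.const 1)) ?_ ?_)
    · exact Primrec.pair gq (Primrec.pair (Primrec.list_tail.comp gL)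
        (Primrec.list_cons.comp (Primrec.list_headI.comp gL)
          (Primrec.list_cons.comp ga (Primrec.list_tail.comp gR))))
    · exact Primrec.pair gq (Primrec.pair (Primrec.list_cons.comp ga gL)
        (Primrec.list_tail.comp gR))
    · exact Primrec.pair gq (Primrec.pair gL
        (Primrec.list_cons.comp ga (Primrec.list_tail.comp gR)))
  exact Primrec.option_getD.comp (Primrec.option_map hl hrule) hc

lemma prim_haltAt {f : α → Machine} {g : α → List ℕ} {h : α → ℕ} (hf : Primrec f)
    (hg : Primrec g) (hh : Primrec h) : Primrec fun a => haltAt (f a) (g a) (h a) := by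
  have hi : Primrec fun a => simInit (f a) (g a) := by
    unfold simInit
    exact Primrec.pair (Primrec.fst.comp hf) (Primrec.pair (Primrec.const []) hg)
  have hs : Primrec fun a => (simStep (f a))^[h a] (simInit (f a) (g a)) :=
    Primrec.nat_iterate hh hi (prim_simStep.comp (hf.comp Primrec.fst) Primrec.snd)
  have hm : Primrec fun a => ((f a).2.1.map fun q =>
      decide (q = ((simStep (f a))^[h a] (simInit (f a) (g a))).1)) := by
    refine Primrec.list_map (Primrec.fst.comp (Primrec.snd.comp hf)) ?_
    exact (Primrec.eq.comp Primrec.snd (Primrec.fst.comp (hs.comp Primrec.fst))).decide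
  unfold haltAt
  refine Primrec.list_foldl (h := fun _ p => p.1 || p.2) hm (Primrec.const false) ?_
  exact Primrec.or.comp (Primrec.fst.comp Primrec.snd) (Primrec.snd.comp Primrec.snd)

end Vale.Agent.P113
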