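import Vale.Agent.P113.Flow

open Set Filter Topology MeasureTheory
open scoped ContDiff

namespace Vale.Agent.P113

/-! ### the velocity field is a classical solution -/

lemma contDiff_du {u : ℝ → Space → Space} (hu : ContDiff ℝ ∞ (fun q : ℝ × Space => u q.1 q.2)) :
    ContDiff ℝ ∞ (fun q : ℝ × Space => fderiv ℝ (u q.1) q.2) := by
  have h : ContDiff ℝ ∞ (Function.uncurry fun (q : ℝ × Space) (y : Space) => u q.1 y) :=
    hu.comp (f := fun r : (ℝ × Space) × Space => (r.1.1, r.2)) (by fun_prop)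
  exact ContDiff.fderiv (m := ∞) h contDiff_snd (by simp)

lemma contDiff_ddu {u : ℝ → Space → Space} (hu : ContDiff ℝ ∞ (fun q : ℝ × Space => u q.1 q.2)) :
    ContDiff ℝ ∞ (fun q : ℝ × Space => fderiv ℝ (fderiv ℝ (u q.1)) q.2) := by
  have h1 := contDiff_du hu
  have h : ContDiff ℝ ∞
      (Function.uncurry fun (q : ℝ × Space) (y : Space) => fderiv ℝ (u q.1) y) :=
    h1.comp (f := fun r : (ℝ × Space) × Space => (r.1.1, r.2)) (by fun_prop)
  exact ContDiff.fderiv (m := ∞) h contDiff_snd (by simp)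

lemma contDiff_slice {u : ℝ → Space → Space} (hu : ContDiff ℝ ∞ (fun q : ℝ × Space => u q.1 q.2))
    (t : ℝ) : ContDiff ℝ ∞ (u t) :=
  hu.comp (f := fun x : Space => (t, x)) (by fun_prop)

lemma contDiff_slice_t {u : ℝ → Space → Space}
    (hu : ContDiff ℝ ∞ (fun q : ℝ × Space => u q.1 q.2))
    (x : Space) : ContDiff ℝ ∞ (fun s => u s x) :=
  hu.comp (f := fun t : ℝ => (t, x)) (by fun_prop)

lemma continuous_ut {u : ℝ → Space → Space} (hu : ContDiff ℝ ∞ (fun q : ℝ × Space => u q.1 q.2)) :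
    Continuous (fun q : ℝ × Space => deriv (fun s => u s q.2) q.1) := by
  have h : ContDiff ℝ ∞ (Function.uncurry fun (q : ℝ × Space) (s : ℝ) => u s q.2) :=
    hu.comp (f := fun r : (ℝ × Space) × ℝ => (r.2, r.1.2)) (by fun_prop)
  have h1 : ContDiff ℝ ∞ (fun q : ℝ × Space => fderiv ℝ (fun s => u s q.2) q.1) :=
    ContDiff.fderiv (m := ∞) h contDiff_fst (by simp)
  have h2 : Continuous (fun q : ℝ × Space => fderiv ℝ (fun s => u s q.2) q.1 1) :=
    h1.continuous.clm_apply continuous_const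
  exact h2

lemma pd_vel_zero (κ : ℝ) (M : Machine) (t : ℝ) (x : Space) (j : Fin 3) :
    pd j (vel κ M t) x = ![if j = 1 then Q 0 t * Gp M 1 (x 1) else 0, 0, 0] := by
  have hd : DifferentiableAt ℝ (vel κ M t) x :=
    (contDiff_slice (contDiff_vel κ M) t).differentiable (by simp) x
  funext i
  rw [pd_apply hd]
  fin_cases i
  · have h1 : HasDerivAt (fun y => Q 0 t * Gp M 0 y) (Q 0 t * Gp M 1 (x 1)) (x 1) :=
      (hasDerivAt_Gp M 0 (x 1)).const_mul _
    exact pd_coord h1 j
  · exact pd_const _ j x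
  · exact pd_const _ j x

lemma pd_pd_vel (κ : ℝ) (M : Machine) (t : ℝ) (x : Space) (j : Fin 3) :
    pd j (pd j (vel κ M t)) x = ![if j = 1 then Q 0 t * Gp M 2 (x 1) else 0, 0, 0] := by
  have hd : DifferentiableAt ℝ (pd j (vel κ M t)) x :=
    (contDiff_pd ((contDiff_slice (contDiff_vel κ M) t).of_le (by norm_cast)) j).differentiable
      (by simp) x
  have he : pd j (vel κ M t) = fun x => ![if j = 1 then Q 0 t * Gp M 1 (x 1) else 0, 0, 0] :=
    funext fun x => pd_vel_zero κ M t x j
  funext i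
  rw [pd_apply hd, he]
  fin_cases i
  · by_cases hj : j = 1
    · subst hj
      simp only [if_true]
      have h1 : HasDerivAt (fun y => Q 0 t * Gp M 1 y) (Q 0 t * Gp M 2 (x 1)) (x 1) :=
        (hasDerivAt_Gp M 1 (x 1)).const_mul _
      exact (pd_coord h1 1).trans (by simp)
    · simp only [hj, if_false]
      exact pd_const _ j x
  · exact pd_const _ j x
  · exact pd_const _ j x

lemma hasDerivAt_vel_t (κ : ℝ) (M : Machine) (t : ℝ) (x : Space) :
    HasDerivAt (fun s => vel κ M s x) ![Q 1 t * Gp M 0 (x 1), κ * D 1 t, 0] t := by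
  rw [hasDerivAt_pi]
  intro i
  fin_cases i
  · exact (hasDerivAt_Q 0 t).mul_const _
  · exact (hasDerivAt_D 0 t).const_mul _
  · exact hasDerivAt_const _ _

lemma classical_vel (κ ν : ℝ) (M : Machine) {T : ℝ} (hT : 0 < T) :
    IsClassicalSolution ν T (frc κ ν M) (vel κ M) (fun _ _ => 0) := by
  have hs := contDiff_vel κ M
  have hdw : ∀ t ∈ Icc 0 T, ∀ x, derivWithin (fun s => vel κ M s x) (Icc 0 T) t
      = ![Q 1 t * Gp M 0 (x 1), κ * D 1 t, 0] := by
    intro t ht x
    exact (hasDerivAt_vel_t κ M t x).hasDerivWithinAt.derivWithin (uniqueDiffOn_Icc hT t ht)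
  refine
    { torus_u := fun t _ => torus_vel κ M t
      torus_p := fun t _ x k => rfl
      contDiff_u := fun t _ => (contDiff_slice hs t).of_le (by norm_cast)
      contDiff_p := fun t _ => contDiff_const
      continuous_u := hs.continuous.continuousOn
      continuous_du := (contDiff_du hs).continuous.continuousOn
      continuous_ddu := (contDiff_ddu hs).continuous.continuousOn
      continuous_p := continuousOn_const
      continuous_dp := ?_
      differentiable_t := ?_
      continuous_ut := ?_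
      initial := ?_
      div_free := ?_
      momentum := ?_
      mean_zero := ?_ }
  · simp only [fderiv_fun_const]
    exact continuousOn_const
  · intro x t _
    exact (hasDerivAt_vel_t κ M t x).differentiableAt.differentiableWithinAt
  · refine (continuous_ut hs).continuousOn.congr ?_
    rintro ⟨t, x⟩ ⟨ht, _⟩
    simp only
    rw [hdw t ht x, (hasDerivAt_vel_t κ M t x).deriv]
  · intro x
    unfold vel
    rw [Q_zero le_rfl (by norm_num), D_zero_left 0 0 le_rfl]
    funext i
    fin_cases i <;> simp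
  · intro t _ x
    simp only [pd_vel_zero, Fin.sum_univ_three]
    simp
  · intro t ht x i
    rw [hdw t ht x]
    simp only [pd_vel_zero, pd_pd_vel, Fin.sum_univ_three, pd_const]
    have hz : D 0 t * Q 0 t = 0 := D_mul_Q ht.1
    fin_cases i
    · simp [vel, frc]
      rcases mul_eq_zero.mp hz with h | h
      · exact Or.inl (Or.inr h)
      · exact Or.inr (Or.inl h)
    · simp [vel, frc]
    · simp [vel, frc]
  · intro t _
    simp

/-! ### trajectories -/

noncomputable def J : ℝ := ∫ s in (0:ℝ)..1, bump s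

lemma J_pos : 0 < J := by
  unfold J
  apply intervalIntegral.intervalIntegral_pos_of_pos_on
  · exact contDiff_bump.continuous.intervalIntegrable _ _
  · intro x hx
    exact bump_pos hx.1 hx.2
  · norm_num

noncomputable def FD (t : ℝ) : ℝ := ∫ s in (0:ℝ)..t, D 0 s
noncomputable def FQ (t : ℝ) : ℝ := ∫ s in (0:ℝ)..t, Q 0 s

lemma hasDerivAt_FD (t : ℝ) : HasDerivAt FD (D 0 t) t :=
  ((contDiff_D' 0).continuous.integral_hasStrictDerivAt 0 t).hasDerivAt
lemma hasDerivAt_FQ (t : ℝ) : HasDerivAt FQ (Q 0 t) t :=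
  ((contDiff_Q 0).continuous.integral_hasStrictDerivAt 0 t).hasDerivAt

lemma FD_zero : FD 0 = 0 := by simp [FD]
lemma FQ_zero : FQ 0 = 0 := by simp [FQ]

lemma FD_of_one_le {t : ℝ} (h : 1 ≤ t) : FD t = J := by
  unfold FD J
  have hi : ∀ a b : ℝ, IntervalIntegrable (D 0) volume a b := fun a b =>
    (contDiff_D' 0).continuous.intervalIntegrable a b
  rw [← intervalIntegral.integral_add_adjacent_intervals (hi 0 1) (hi 1 t)]
  have h1 : ∫ s in (1:ℝ)..t, D 0 s = 0 := by
    rw [intervalIntegral.integral_congr (g := fun _ => (0:ℝ))]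
    · simp
    · intro s hs
      rw [uIcc_of_le h] at hs
      exact D_zero_right 0 s hs.1
  rw [h1, add_zero, D_zero]

lemma FQ_two : 0 < FQ 2 := by
  unfold FQ
  have hi : ∀ a b : ℝ, IntervalIntegrable (Q 0) volume a b := fun a b =>
    (contDiff_Q 0).continuous.intervalIntegrable a b
  rw [← intervalIntegral.integral_add_adjacent_intervals (hi 0 1) (hi 1 2)]
  have h1 : ∫ s in (0:ℝ)..1, Q 0 s = 0 := by
    rw [intervalIntegral.integral_congr (g := fun _ => (0:ℝ))]
    · simp
    · intro s hs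
      rw [uIcc_of_le (by norm_num)] at hs
      exact Q_zero hs.1 hs.2
  rw [h1, zero_add]
  apply intervalIntegral.intervalIntegral_pos_of_pos_on (hi 1 2)
  · intro x hx
    rw [Q_of_one_le hx.1.le, D_zero]
    have hf : Int.fract x = x - 1 := by
      rw [Int.fract]
      have : ⌊x⌋ = 1 := Int.floor_eq_iff.mpr ⟨by norm_num; exact hx.1.le, by norm_num; linarith [hx.2]⟩
      rw [this]
      simp
    rw [hf]
    exact bump_pos (by linarith [hx.1]) (by linarith [hx.2])
  · norm_num

lemma eq_of_right_deriv {F F' H : ℝ → ℝ} (hF : ∀ t, 0 ≤ t → HasDerivWithinAt F (F' t) (Ici 0) t)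
    (hH : ∀ t, 0 ≤ t → HasDerivAt H (F' t) t) (h0 : F 0 = H 0) {t : ℝ} (ht : 0 ≤ t) :
    F t = H t := by
  have hd : ∀ s, 0 ≤ s → HasDerivWithinAt (fun s => F s - H s) 0 (Ici 0) s := by
    intro s hs
    have := (hF s hs).sub (hH s hs).hasDerivWithinAt
    rw [sub_self] at this
    exact this
  have h1 := constant_of_has_deriv_right_zero (f := fun s => F s - H s) (a := 0) (b := t)
    (fun s hs => ((hd s hs.1).continuousWithinAt).mono Icc_subset_Ici_self)
    (fun s hs => (hd s hs.1).mono (Ici_subset_Ici.mpr hs.1)) t ⟨ht, le_rfl⟩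
  simp only [h0, sub_self] at h1
  linarith

/-- the explicit trajectory -/
noncomputable def traj (κ : ℝ) (M : Machine) (t : ℝ) : Space :=
  ![Gp M 0 (κ * J) * FQ t, κ * FD t, 0]

lemma vel_traj (κ : ℝ) (M : Machine) {t y : ℝ} (ht : 0 ≤ t) (hy : y = κ * FD t) :
    Q 0 t * Gp M 0 y = Gp M 0 (κ * J) * Q 0 t := by
  rcases le_or_gt t 1 with h1 | h1
  · rw [Q_zero ht h1]
    ring
  · rw [hy, FD_of_one_le h1.le]
    ring

lemma isTrajectory_traj (κ : ℝ) (M : Machine) : IsTrajectory (vel κ M) 0 (traj κ M) := by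
  refine ⟨?_, fun t ht => ?_⟩
  · unfold traj
    rw [FQ_zero, FD_zero]
    funext i
    fin_cases i <;> simp
  · apply HasDerivAt.hasDerivWithinAt
    rw [hasDerivAt_pi]
    intro i
    fin_cases i
    · have h := (hasDerivAt_FQ t).const_mul (Gp M 0 (κ * J))
      have e : vel κ M t (traj κ M t) 0 = Gp M 0 (κ * J) * Q 0 t := by
        exact vel_traj κ M ht rfl
      exact h.congr_deriv e.symm
    · exact (hasDerivAt_FD t).const_mul κ
    · exact hasDerivAt_const _ _

lemma trajectory_unique {κ : ℝ} {M : Machine} {X : ℝ → Space}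
    (hX : IsTrajectory (vel κ M) 0 X) {t : ℝ} (ht : 0 ≤ t) :
    X t 0 = Gp M 0 (κ * J) * FQ t := by
  have hc : ∀ t, 0 ≤ t → ∀ i, HasDerivWithinAt (fun s => X s i) (vel κ M t (X t) i) (Ici 0) t :=
    fun t ht i => hasDerivWithinAt_pi.mp (hX.2 t ht) i
  have h1 : ∀ t, 0 ≤ t → X t 1 = κ * FD t := by
    intro t ht
    refine eq_of_right_deriv (F := fun s => X s 1) (F' := fun s => κ * D 0 s)
      (H := fun s => κ * FD s) (fun s hs => hc s hs 1)
      (fun s hs => (hasDerivAt_FD s).const_mul κ) ?_ ht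
    simp [hX.1, FD_zero]
  refine eq_of_right_deriv (F := fun s => X s 0) (F' := fun s => Gp M 0 (κ * J) * Q 0 s)
      (H := fun s => Gp M 0 (κ * J) * FQ s) (fun s hs => ?_)
      (fun s hs => (hasDerivAt_FQ s).const_mul _) ?_ ht
  · have h2 := hc s hs 0
    have h3 : vel κ M s (X s) 0 = Gp M 0 (κ * J) * Q 0 s := vel_traj κ M hs (h1 s hs)
    rwa [h3] at h2
  · simp [hX.1, FQ_zero]

/-- the target set -/
def target : Set (Fin 3 → UnitAddCircle) := {θ | θ 0 ≠ 0}

lemma isOpen_target : IsOpen target := by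
  have : target = (fun θ : Fin 3 → UnitAddCircle => θ 0) ⁻¹' {0}ᶜ := rfl
  rw [this]
  exact isOpen_compl_singleton.preimage (continuous_apply 0)

lemma reach_iff {κ : ℝ} {M : Machine} {X : ℝ → Space} (hX : IsTrajectory (vel κ M) 0 X)
    (hnn : 0 ≤ Gp M 0 (κ * J)) :
    (∃ t, 0 ≤ t ∧ toTorus (X t) ∈ target) ↔ 0 < Gp M 0 (κ * J) := by
  set g := Gp M 0 (κ * J) with hg
  have key : ∀ t, toTorus (X t) ∈ target ↔ ((X t 0 : ℝ) : UnitAddCircle) ≠ 0 := fun t => Iff.rfl
  constructor
  · rintro ⟨t, ht, h⟩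
    rcases hnn.lt_or_eq with h1 | h1
    · exact h1
    · exfalso
      rw [key, trajectory_unique hX ht, ← hg, ← h1, zero_mul] at h
      exact h (by simp)
  · intro h
    have hcont : ContinuousOn (fun t => g * FQ t) (Icc 0 2) := by
      have : Continuous FQ := continuous_iff_continuousAt.mpr fun t => (hasDerivAt_FQ t).continuousAt
      exact (continuous_const.mul this).continuousOn
    have hpos : 0 < g * FQ 2 := mul_pos h FQ_two
    have hmem : min (g * FQ 2) (1 / 2) ∈ Icc (g * FQ 0) (g * FQ 2) := by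
      rw [FQ_zero, mul_zero]
      exact ⟨le_min hpos.le (by norm_num), min_le_left _ _⟩
    obtain ⟨t, ht, hte⟩ := intermediate_value_Icc (by norm_num : (0:ℝ) ≤ 2) hcont hmem
    refine ⟨t, ht.1, ?_⟩
    rw [key, trajectory_unique hX ht.1, ← hg]
    simp only at hte
    rw [hte]
    have h1 : 0 < min (g * FQ 2) (1 / 2) := lt_min hpos (by norm_num)
    have h2 : min (g * FQ 2) (1 / 2) < 1 := lt_of_le_of_lt (min_le_right _ _) (by norm_num)
    intro hz
    rw [AddCircle.coe_eq_zero_iff] at hz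
    obtain ⟨n, hn⟩ := hz
    rw [zsmul_eq_mul, mul_one] at hn
    rw [← hn] at h1 h2
    have h3 : (0:ℤ) < n := by exact_mod_cast h1
    have h4 : n < (1:ℤ) := by exact_mod_cast h2
    omega

end Vale.Agent.P113
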